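import Vale.Agent.P298.MathlibUsed
import Vale.Agent.P298.StmtFlag

set_option linter.all false

section

section

namespace Vale.Agent.P298

open Filter Topology Metric Set
open scoped NNReal ENNReal

section DivGen

variable {V F : Type*} [NormedAddCommGroup V] [NormedSpace ℂ V]
  [NormedAddCommGroup F] [NormedSpace ℂ F]

/-- insertion of a free slot at `j`, with `π` applied to the later slots -/
noncomputable def insSlot (π : V →L[ℂ] V) {k : ℕ} (j : Fin (k + 1))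
    (p : ContinuousMultilinearMap ℂ (fun _ : Fin (k + 1) => V) F) :
    ContinuousMultilinearMap ℂ (fun _ : Fin k => V) (V →L[ℂ] F) :=
  ((p.curryMid j).flipMultilinear).compContinuousLinearMap
    (fun i => if i.castSucc < j then ContinuousLinearMap.id ℂ V else π)

lemma insSlot_apply (π : V →L[ℂ] V) {k : ℕ} (j : Fin (k + 1))
    (p : ContinuousMultilinearMap ℂ (fun _ : Fin (k + 1) => V) F) (v : Fin k → V) (a : V) :
    insSlot π j p v a =
      p (j.insertNth a (fun i => if i.castSucc < j then v i else π (v i))) := by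
  simp only [insSlot, ContinuousMultilinearMap.compContinuousLinearMap_apply,
    ContinuousLinearMap.flipMultilinear_apply_apply]
  erw [ContinuousMultilinearMap.curryMid_apply]
  congr 2
  funext i
  split_ifs <;> rfl

lemma norm_insSlot_le (π : V →L[ℂ] V) (hπ : ‖π‖ ≤ 1) {k : ℕ} (j : Fin (k + 1))
    (p : ContinuousMultilinearMap ℂ (fun _ : Fin (k + 1) => V) F) :
    ‖insSlot π j p‖ ≤ ‖p‖ := by
  refine ContinuousMultilinearMap.opNorm_le_bound (norm_nonneg _) fun v => ?_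
  refine ContinuousLinearMap.opNorm_le_bound _ (by positivity) fun a => ?_
  rw [insSlot_apply]
  refine (p.le_opNorm _).trans ?_
  rw [mul_assoc]
  refine mul_le_mul_of_nonneg_left ?_ (norm_nonneg _)
  rw [Fin.prod_univ_succAbove _ j, Fin.insertNth_apply_same, mul_comm]
  refine mul_le_mul_of_nonneg_right ?_ (norm_nonneg _)
  refine Finset.prod_le_prod (fun _ _ => norm_nonneg _) fun i _ => ?_
  rw [Fin.insertNth_apply_succAbove]
  split_ifs
  · exact le_rfl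
  · exact (π.le_opNorm _).trans (by nlinarith [norm_nonneg (v i)])

/-- the telescoping identity -/
lemma sum_insSlot (π : V →L[ℂ] V) {k : ℕ}
    (p : ContinuousMultilinearMap ℂ (fun _ : Fin (k + 1) => V) F) (v : V) :
    ∑ j : Fin (k + 1), insSlot π j p (fun _ => v) (v - π v) =
      p (fun _ => v) - p (fun _ => π v) := by
  set u : ℕ → (Fin (k + 1) → V) := fun m i => if (i : ℕ) < m then v else π v with hu
  have key : ∀ j : Fin (k + 1), insSlot π j p (fun _ => v) (v - π v) =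
      p (u (j + 1)) - p (u j) := by
    intro j
    rw [map_sub, insSlot_apply, insSlot_apply]
    congr 2
    · funext i
      refine Fin.succAboveCases j ?_ (fun i => ?_) i
      · simp [hu]
      · simp only [Fin.insertNth_apply_succAbove, hu]
        by_cases h : i.castSucc < j
        · rw [if_pos h, Fin.succAbove_of_castSucc_lt _ _ h, if_pos]
          have : (i : ℕ) < j := h
          simp only [Fin.val_castSucc]; omega
        · rw [if_neg h, Fin.succAbove_of_le_castSucc _ _ (not_lt.mp h), if_neg]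
          have : (j : ℕ) ≤ i := not_lt.mp h
          simp only [Fin.val_succ]; omega
    · funext i
      refine Fin.succAboveCases j ?_ (fun i => ?_) i
      · simp [hu]
      · simp only [Fin.insertNth_apply_succAbove, hu]
        by_cases h : i.castSucc < j
        · rw [if_pos h, Fin.succAbove_of_castSucc_lt _ _ h, if_pos]
          have : (i : ℕ) < j := h
          simpa using this
        · rw [if_neg h, Fin.succAbove_of_le_castSucc _ _ (not_lt.mp h), if_neg]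
          have : (j : ℕ) ≤ i := not_lt.mp h
          simp only [Fin.val_succ]; omega
  rw [Finset.sum_congr rfl fun j _ => key j,
    Fin.sum_univ_eq_sum_range (fun m => p (u (m + 1)) - p (u m)) (k + 1),
    Finset.sum_range_sub (fun m => p (u m))]
  congr 2
  funext i
  simp [hu, i.isLt]

/-- the power series of the quotient -/
noncomputable def divSeries (π : V →L[ℂ] V) (p : FormalMultilinearSeries ℂ V F) :
    FormalMultilinearSeries ℂ V (V →L[ℂ] F) :=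
  fun k => ∑ j : Fin (k + 1), insSlot π j (p (k + 1))

lemma norm_divSeries_le (π : V →L[ℂ] V) (hπ : ‖π‖ ≤ 1) (p : FormalMultilinearSeries ℂ V F)
    (k : ℕ) : ‖divSeries π p k‖ ≤ (k + 1) * ‖p (k + 1)‖ := by
  have h1 : ‖divSeries π p k‖ ≤ ∑ j : Fin (k + 1), ‖insSlot π j (p (k + 1))‖ :=
    norm_sum_le Finset.univ (fun j : Fin (k + 1) => insSlot π j (p (k + 1)))
  refine h1.trans ?_
  refine (Finset.sum_le_sum fun (j : Fin (k + 1)) _ =>
    norm_insSlot_le π hπ j (p (k + 1))).trans ?_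
  simp

lemma divSeries_radius_pos (π : V →L[ℂ] V) (hπ : ‖π‖ ≤ 1) (p : FormalMultilinearSeries ℂ V F)
    (hp : 0 < p.radius) : 0 < (divSeries π p).radius := by
  obtain ⟨C, r, hC, hr, h⟩ := p.le_mul_pow_of_radius_pos hp
  have hC' : 0 < C := hC
  have h2 : ∀ k : ℕ, ‖divSeries π p k‖ * ((1 / (2 * r) : ℝ)) ^ k ≤ C * r := by
    intro k
    have h3 := norm_divSeries_le π hπ p k
    have h4 := h (k + 1)
    have h5 : ((k : ℝ) + 1) ≤ 2 ^ k := by
      have := Nat.lt_two_pow_self (n := k)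
      exact_mod_cast this
    calc ‖divSeries π p k‖ * (1 / (2 * r)) ^ k
        ≤ ((k + 1) * (C * r ^ (k + 1))) * (1 / (2 * r)) ^ k := by
          gcongr
          exact h3.trans (by gcongr)
      _ = (k + 1) * (C * r) * (1 / 2) ^ k := by
          have h7 : r ^ k * (1 / r) ^ k = 1 := by
            rw [← mul_pow, mul_one_div_cancel hr.ne', one_pow]
          have h8 : (1 / (2 * r) : ℝ) ^ k = (1 / 2) ^ k * (1 / r) ^ k := by
            rw [← mul_pow]; congr 1; field_simp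
          rw [h8, pow_succ]
          linear_combination ((k : ℝ) + 1) * (C * r) * (1 / 2) ^ k * h7
      _ ≤ 2 ^ k * (C * r) * (1 / 2) ^ k := by gcongr
      _ = C * r := by
          rw [mul_comm (2 ^ k) _, mul_assoc, ← mul_pow]; norm_num
  set r' : ℝ≥0 := ⟨1 / (2 * r), by positivity⟩ with hr'
  have h6 : (r' : ℝ≥0∞) ≤ (divSeries π p).radius :=
    FormalMultilinearSeries.le_radius_of_bound _ (C * r) h2
  refine lt_of_lt_of_le ?_ h6
  rw [ENNReal.coe_pos]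
  exact_mod_cast (by positivity : (0 : ℝ) < 1 / (2 * r))

/-- Hadamard division: `φ v - φ (π v) = Q v (v - π v)` with `Q` analytic. -/
theorem exists_division [CompleteSpace F] (π : V →L[ℂ] V) (hπ : ‖π‖ ≤ 1) {φ : V → F} {v₀ : V}
    (hφ : AnalyticAt ℂ φ v₀) :
    ∃ Q : V → (V →L[ℂ] F), AnalyticAt ℂ Q v₀ ∧
      ∀ᶠ v in 𝓝 v₀, φ v - φ (v₀ + π (v - v₀)) = Q v (v - (v₀ + π (v - v₀))) := by
  obtain ⟨p, r, hp⟩ := hφ
  have hrad : 0 < p.radius := lt_of_lt_of_le hp.r_pos hp.r_le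
  have hq := divSeries_radius_pos π hπ p hrad
  have hQ := (divSeries π p).hasFPowerSeriesOnBall hq
  refine ⟨fun v => (divSeries π p).sum (v - v₀), ?_, ?_⟩
  · have h1 : AnalyticAt ℂ (divSeries π p).sum (v₀ - v₀) := by
      rw [sub_self]; exact hQ.analyticAt
    exact h1.comp_of_eq (analyticAt_id.sub analyticAt_const) rfl
  · have hball1 : ∀ᶠ v in 𝓝 v₀, v - v₀ ∈ Metric.eball (0 : V) r := by
      have : Tendsto (fun v => v - v₀) (𝓝 v₀) (𝓝 0) := by
        have h : Continuous (fun v => v - v₀) := by fun_prop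
        have := h.tendsto v₀
        rwa [sub_self] at this
      exact this (Metric.eball_mem_nhds 0 hp.r_pos)
    have hball2 : ∀ᶠ v in 𝓝 v₀, v - v₀ ∈ Metric.eball (0 : V) (divSeries π p).radius := by
      have : Tendsto (fun v => v - v₀) (𝓝 v₀) (𝓝 0) := by
        have h : Continuous (fun v => v - v₀) := by fun_prop
        have := h.tendsto v₀
        rwa [sub_self] at this
      exact this (Metric.eball_mem_nhds 0 hq)
    filter_upwards [hball1, hball2] with v hv1 hv2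
    set w := v - v₀ with hw
    have hπw : π w ∈ Metric.eball (0 : V) r := by
      rw [Metric.mem_eball, edist_zero_right] at hv1 ⊢
      refine lt_of_le_of_lt ?_ hv1
      rw [← ofReal_norm, ← ofReal_norm]
      refine ENNReal.ofReal_le_ofReal ((π.le_opNorm w).trans ?_)
      nlinarith [norm_nonneg w]
    have s1 := hp.hasSum hv1
    have s2 := hp.hasSum hπw
    have s3 := hQ.hasSum hv2
    rw [zero_add] at s3
    have s4 : HasSum (fun k => (divSeries π p k (fun _ => w)) (w - π w))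
        ((divSeries π p).sum w (w - π w)) :=
      (ContinuousLinearMap.apply ℂ F (w - π w)).hasSum s3
    have s5 := s1.sub s2
    have hv : v₀ + w = v := by rw [hw]; abel
    rw [hv] at s5
    have s6 : HasSum (fun k => (p (k + 1) fun _ => w) - p (k + 1) fun _ => π w)
        (φ v - φ (v₀ + π w)) := by
      rw [← hasSum_nat_add_iff' 1] at s5
      have h0 : (p 0 fun _ => w) = p 0 fun _ => π w := by
        congr 1; funext i; exact i.elim0
      simpa [h0] using s5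
    have s7 : (fun k => (divSeries π p k (fun _ => w)) (w - π w)) =
        fun k => (p (k + 1) fun _ => w) - p (k + 1) fun _ => π w := by
      funext k
      rw [← sum_insSlot]
      simp [divSeries]
    rw [s7] at s4
    have h8 := s6.unique s4
    rw [h8]
    congr 1
    rw [hw]; abel

end DivGen

end Vale.Agent.P298
end
end

section

section

namespace Vale.Agent.P298

open Filter Topology Module

/-- If the span of a continuous finite family of vectors has constant dimension, then vectors in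
the span have uniformly bounded coefficients. -/
theorem bounded_coeffs {V : Type*} [NormedAddCommGroup V] [NormedSpace ℂ V]
    [FiniteDimensional ℂ V] {A : Type} [Fintype A] {Λ : Type*} [TopologicalSpace Λ] {l₀ : Λ}
    (u : Λ → A → V) (hu : ∀ a, ContinuousAt (fun l => u l a) l₀) (m : ℕ)
    (hm : ∀ᶠ l in 𝓝 l₀, finrank ℂ (Submodule.span ℂ (Set.range (u l))) = m) :
    ∃ C : ℝ, 0 ≤ C ∧ ∀ᶠ l in 𝓝 l₀, ∀ v ∈ Submodule.span ℂ (Set.range (u l)),
      ∃ c : A → ℂ, v = ∑ a, c a • u l a ∧ ∀ a, ‖c a‖ ≤ C * ‖v‖ := by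
  classical
  obtain ⟨κ, a, ha, hspan, hli⟩ := exists_linearIndependent' ℂ (u l₀)
  have : Finite κ := Finite.of_injective a ha
  have := Fintype.ofFinite κ
  let T : Λ → ((κ → ℂ) →ₗ[ℂ] V) := fun l => Fintype.linearCombination ℂ (u l ∘ a)
  have hT : ∀ l c, T l c = ∑ k, c k • u l (a k) := fun l c => rfl
  have hker : (T l₀).ker = ⊥ := by
    rw [LinearMap.ker_eq_bot]
    exact linearIndependent_iff_injective_fintypeLinearCombination.mp hli
  obtain ⟨K, hK, hanti⟩ := (T l₀).exists_antilipschitzWith hker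
  have hbelow : ∀ c, ‖c‖ ≤ K * ‖T l₀ c‖ := fun c => by
    have := hanti.le_mul_dist c 0
    simpa using this
  have hm0 : m = Fintype.card κ := by
    rw [← hm.self_of_nhds, ← hspan, finrank_span_eq_card hli]
  -- closeness
  have hclose : ∀ᶠ l in 𝓝 l₀, ∑ k, ‖u l (a k) - u l₀ (a k)‖ < 1 / (2 * K) := by
    have h1 : ContinuousAt (fun l => ∑ k, ‖u l (a k) - u l₀ (a k)‖) l₀ := by
      refine tendsto_finsetSum _ fun k _ => ?_
      exact ((hu (a k)).sub continuousAt_const).norm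
    have h2 : (∑ k, ‖u l₀ (a k) - u l₀ (a k)‖) < 1 / (2 * K) := by
      simp; exact hK
    exact h1.eventually_lt continuousAt_const h2
  refine ⟨2 * K, by positivity, ?_⟩
  filter_upwards [hm, hclose] with l hl hcl v hv
  have hb : ∀ c : κ → ℂ, ‖c‖ ≤ 2 * K * ‖T l c‖ := by
    intro c
    have h1 : ‖T l c - T l₀ c‖ ≤ ‖c‖ * (1 / (2 * K)) := by
      rw [hT, hT, ← Finset.sum_sub_distrib]
      calc ‖∑ k, (c k • u l (a k) - c k • u l₀ (a k))‖
          ≤ ∑ k, ‖c k • u l (a k) - c k • u l₀ (a k)‖ := norm_sum_le _ _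
        _ ≤ ∑ k, ‖c‖ * ‖u l (a k) - u l₀ (a k)‖ := by
            refine Finset.sum_le_sum fun k _ => ?_
            rw [← smul_sub, norm_smul]
            gcongr
            exact norm_le_pi_norm c k
        _ = ‖c‖ * ∑ k, ‖u l (a k) - u l₀ (a k)‖ := by rw [Finset.mul_sum]
        _ ≤ _ := by gcongr
    have h2 : ‖T l₀ c‖ ≤ ‖T l c‖ + ‖T l c - T l₀ c‖ := by
      have := norm_sub_le (T l c) (T l c - T l₀ c)
      simpa using this
    have h3 := hbelow c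
    have hKr : (0 : ℝ) < K := hK
    have h4 : ‖c‖ ≤ K * (‖T l c‖ + ‖c‖ * (1 / (2 * K))) := by
      refine h3.trans ?_
      gcongr
      exact h2.trans (by gcongr)
    have h5 : (K : ℝ) * (‖c‖ * (1 / (2 * K))) = ‖c‖ / 2 := by
      field_simp
    rw [mul_add, h5] at h4
    linarith
  have hinj : Function.Injective (T l) := by
    rw [← LinearMap.ker_eq_bot, LinearMap.ker_eq_bot']
    intro c hc
    have := hb c
    rw [hc, norm_zero, mul_zero] at this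
    exact norm_le_zero_iff.mp this
  have hrange : (T l).range = Submodule.span ℂ (Set.range (u l)) := by
    have hle : (T l).range ≤ Submodule.span ℂ (Set.range (u l)) := by
      rintro _ ⟨c, rfl⟩
      rw [hT]
      exact Submodule.sum_mem _ fun k _ => Submodule.smul_mem _ _
        (Submodule.subset_span ⟨a k, rfl⟩)
    refine Submodule.eq_of_le_of_finrank_eq hle ?_
    rw [LinearMap.finrank_range_of_inj hinj, hl, hm0]
    simp
  rw [← hrange] at hv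
  obtain ⟨c, rfl⟩ := hv
  refine ⟨fun x => ∑ k, if a k = x then c k else 0, ?_, ?_⟩
  · rw [hT]
    simp_rw [Finset.sum_smul]
    rw [Finset.sum_comm]
    refine Finset.sum_congr rfl fun k _ => ?_
    rw [Finset.sum_eq_single (a k)]
    · simp
    · intro b _ hb
      rw [if_neg (Ne.symm hb), zero_smul]
    · intro h; exact absurd (Finset.mem_univ _) h
  · intro x
    by_cases hx : ∃ k, a k = x
    · obtain ⟨k, rfl⟩ := hx
      beta_reduce
      rw [Finset.sum_eq_single k]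
      · simp only [if_true]
        exact (norm_le_pi_norm c k).trans (hb c)
      · intro j _ hj
        rw [if_neg]
        intro h; exact hj (ha h)
      · intro h; exact absurd (Finset.mem_univ _) h
    · have : (∑ k, if a k = x then c k else 0) = 0 := by
        refine Finset.sum_eq_zero fun k _ => if_neg fun h => hx ⟨k, h⟩
      beta_reduce
      rw [this, norm_zero]
      positivity

end Vale.Agent.P298
end
end

section

section

open Set Metric Filter Topology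
open scoped NNReal ContDiff Manifold

namespace Vale.Agent.P298

/-- A compactly supported cutoff of a locally defined `C^1` map. -/
theorem exists_cutoff {W Z : Type*} [NormedAddCommGroup W] [NormedSpace ℝ W]
    [FiniteDimensional ℝ W] [NormedAddCommGroup Z] [NormedSpace ℝ Z]
    (g : W → Z) (Ω : Set W) (hΩ : IsOpen Ω) (hg : ContDiffOn ℝ 1 g Ω)
    (K : Set W) (hK : IsCompact K) (hKΩ : K ⊆ Ω) :
    ∃ h : W → Z, ContDiff ℝ 1 h ∧ HasCompactSupport h ∧ ∀ᶠ p in 𝓝ˢ K, h p = g p := by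
  obtain ⟨L, hL, hKL, hLΩ⟩ := exists_compact_between hK hΩ hKΩ
  obtain ⟨ψ, hψ1, hψ0, -⟩ := exists_contMDiffMap_one_nhds_of_subset_interior (n := 1)
    𝓘(ℝ, W) hK.isClosed hKL
  have hψ : ContDiff ℝ 1 ψ := ψ.contMDiff.contDiff
  refine ⟨fun p => ψ p • g p, ?_, ?_, ?_⟩
  · rw [contDiff_iff_contDiffAt]
    intro p
    by_cases hp : p ∈ Ω
    · exact hψ.contDiffAt.smul (hg.contDiffAt (hΩ.mem_nhds hp))
    · have hpL : p ∉ L := fun h => hp (hLΩ h)
      have : (fun p => ψ p • g p) =ᶠ[𝓝 p] fun _ => (0 : Z) := by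
        filter_upwards [hL.isClosed.isOpen_compl.mem_nhds hpL] with q hq
        rw [hψ0 q hq, zero_smul]
      exact contDiffAt_const.congr_of_eventuallyEq this
  · apply HasCompactSupport.of_support_subset_isCompact hL
    intro p hp
    by_contra hpL
    apply hp
    simp [hψ0 p hpL]
  · filter_upwards [hψ1] with p hp
    rw [hp, one_smul]

theorem trapped_flow {Z : Type*} [NormedAddCommGroup Z] [NormedSpace ℝ Z]
    [FiniteDimensional ℝ Z]
    (g : ℝ × Z → Z) (Ω : Set (ℝ × Z)) (hΩ : IsOpen Ω) (hg : ContDiffOn ℝ 1 g Ω)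
    (K : Set (ℝ × Z)) (hK : IsCompact K) (hKΩ : K ⊆ Ω) (K₀ : Set Z)
    (hK₀ : ∀ z ∈ K₀, ((0 : ℝ), z) ∈ K)
    (trap : ∀ b ∈ Icc (0 : ℝ) 1, ∀ z : ℝ → Z, z 0 ∈ K₀ →
      (∀ s ∈ Icc (0 : ℝ) b, (s, z s) ∈ Ω ∧ HasDerivWithinAt z (g (s, z s)) (Icc 0 b) s) →
      ∀ s ∈ Icc (0 : ℝ) b, (s, z s) ∈ K) :
    ∃ Φ : Z → ℝ → Z, (∀ z ∈ K₀, Φ z 0 = z ∧ ∀ s ∈ Icc (0 : ℝ) 1, (s, Φ z s) ∈ K ∧
        HasDerivWithinAt (Φ z) (g (s, Φ z s)) (Icc 0 1) s) ∧
      ContinuousOn (fun z => Φ z 1) K₀ ∧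
      ∀ w : ℝ → Z, w 0 ∈ K₀ → (∀ s ∈ Icc (0 : ℝ) 1, (s, w s) ∈ Ω ∧
        HasDerivWithinAt w (g (s, w s)) (Icc 0 1) s) → ∀ s ∈ Icc (0 : ℝ) 1, w s = Φ (w 0) s := by
  have : CompleteSpace Z := FiniteDimensional.complete ℝ Z
  obtain ⟨h, hh, hsupp, hhK⟩ := exists_cutoff g Ω hΩ hg K hK hKΩ
  obtain ⟨C, hC⟩ := hh.lipschitzWith_of_hasCompactSupport hsupp (by simp)
  obtain ⟨M, hM⟩ := hsupp.exists_bound_of_continuous hh.continuous
  -- bound for initial points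
  have hbdd : Bornology.IsBounded K₀ := by
    have : K₀ ⊆ Prod.snd '' K := fun z hz => ⟨(0, z), hK₀ z hz, rfl⟩
    exact (hK.image continuous_snd).isBounded.subset this
  obtain ⟨R, hR⟩ := hbdd.subset_closedBall 0
  set R' : ℝ≥0 := Real.toNNReal R
  set M' : ℝ≥0 := Real.toNNReal M
  have hM' : ∀ p, ‖h p‖ ≤ M' := fun p => (hM p).trans (Real.le_coe_toNNReal M)
  have hlip : ∀ s : ℝ, LipschitzWith C (fun z => h (s, z)) := fun s => by
    refine LipschitzWith.of_dist_le_mul fun x y => (hC.dist_le_mul _ _).trans ?_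
    simp [Prod.dist_eq]
  have hPL : IsPicardLindelof (fun s z => h (s, z))
      (⟨0, by simp⟩ : Icc (0 : ℝ) 1) (0 : Z) (R' + M') R' M' C := by
    refine ⟨fun s _ => (hlip s).lipschitzOnWith, fun z _ => ?_, fun s _ z _ => hM' _, ?_⟩
    · exact (hh.continuous.comp (by fun_prop)).continuousOn
    · simp
  obtain ⟨Φ, hΦ1, L', hΦ2⟩ :=
    hPL.exists_forall_mem_closedBall_eq_hasDerivWithinAt_lipschitzOnWith
  have hsub : K₀ ⊆ closedBall 0 R' := hR.trans (closedBall_subset_closedBall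
    (Real.le_coe_toNNReal R))
  -- key: trajectories of the cutoff field starting in `K₀` stay in `K`
  have key : ∀ z ∈ K₀, ∀ s ∈ Icc (0 : ℝ) 1, (s, Φ z s) ∈ K := by
    intro z hz
    obtain ⟨h0, hder⟩ := hΦ1 z (hsub hz)
    have hcont : ContinuousOn (fun s => (s, Φ z s)) (Icc (0 : ℝ) 1) :=
      continuousOn_id.prodMk (HasDerivWithinAt.continuousOn hder)
    set S : Set ℝ := {s | ∀ s' ∈ Icc (0 : ℝ) s, (s', Φ z s') ∈ K} with hS
    have hclosed : IsClosed (S ∩ Icc 0 1) := by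
      rw [← isSeqClosed_iff_isClosed]
      intro x a hx ha
      have ha01 : a ∈ Icc (0 : ℝ) 1 := isClosed_Icc.mem_of_tendsto ha
        (Eventually.of_forall fun n => (hx n).2)
      refine ⟨fun s' hs' => ?_, ha01⟩
      rcases eq_or_lt_of_le hs'.2 with rfl | hlt
      · have hx' : ∀ n, (x n, Φ z (x n)) ∈ K := fun n => (hx n).1 _ ⟨(hx n).2.1, le_rfl⟩
        have ht : Tendsto x atTop (𝓝[Icc 0 1] s') :=
          tendsto_nhdsWithin_iff.2 ⟨ha, Eventually.of_forall fun n => (hx n).2⟩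
        exact hK.isClosed.mem_of_tendsto ((hcont s' ha01).tendsto.comp ht)
          (Eventually.of_forall hx')
      · obtain ⟨n, hn⟩ := (ha.eventually (lt_mem_nhds hlt)).exists
        exact (hx n).1 s' ⟨hs'.1, hn.le⟩
    have h0S : (0 : ℝ) ∈ S := by
      intro s' hs'
      have : s' = 0 := le_antisymm hs'.2 hs'.1
      subst this
      rw [show Φ z 0 = z from h0]
      exact hK₀ z hz
    have hIcc : Icc (0 : ℝ) 1 ⊆ S := by
      refine hclosed.Icc_subset_of_forall_exists_gt h0S ?_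
      rintro x ⟨hxS, hx0, hx1⟩ y hy
      -- near `x` the cutoff agrees with `g`
      have hxK : (x, Φ z x) ∈ K := hxS x ⟨hx0, le_rfl⟩
      have hev : ∀ᶠ p in 𝓝ˢ K, h p = g p ∧ p ∈ Ω := hhK.and (hΩ.mem_nhdsSet.2 hKΩ)
      have hev' : ∀ᶠ p in 𝓝 (x, Φ z x), h p = g p ∧ p ∈ Ω :=
        eventually_nhdsSet_iff_forall.1 hev _ hxK
      have hc := hcont x ⟨hx0, hx1.le⟩
      have hev2 : ∀ᶠ s in 𝓝[Icc 0 1] x, h (s, Φ z s) = g (s, Φ z s) ∧ (s, Φ z s) ∈ Ω :=
        hc.tendsto.eventually hev'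
      have hev3 : ∀ᶠ s in 𝓝[≥] x, h (s, Φ z s) = g (s, Φ z s) ∧ (s, Φ z s) ∈ Ω := by
        have : 𝓝[≥] x ≤ 𝓝[Icc 0 1] x := by
          rw [nhdsWithin_le_iff]
          filter_upwards [Ico_mem_nhdsGE hx1] with s hs
          exact ⟨hx0.trans hs.1, hs.2.le⟩
        exact this hev2
      obtain ⟨u, hu, hu'⟩ := (mem_nhdsGE_iff_exists_Ico_subset).1 hev3
      set c : ℝ := min (min ((x + u) / 2) 1) y with hc'
      have hxc : x < c := by
        have h1 : x < u := hu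
        have h2 : x < y := hy
        simp only [hc', lt_min_iff]
        exact ⟨⟨by linarith, hx1⟩, h2⟩
      have hcu : c < u := by
        have h1 : x < u := hu
        have : c ≤ (x + u) / 2 := (min_le_left _ _).trans (min_le_left _ _)
        linarith
      have hc1 : c ≤ 1 := (min_le_left _ _).trans (min_le_right _ _)
      have hc0 : 0 ≤ c := hx0.trans hxc.le
      refine ⟨c, ?_, hxc, min_le_right _ _⟩
      -- solution of the original ODE on `[0,c]`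
      have hsol : ∀ s ∈ Icc (0 : ℝ) c, (s, Φ z s) ∈ Ω ∧
          HasDerivWithinAt (Φ z) (g (s, Φ z s)) (Icc 0 c) s := by
        intro s hs
        have hs1 : s ∈ Icc (0 : ℝ) 1 := ⟨hs.1, hs.2.trans hc1⟩
        have heq : h (s, Φ z s) = g (s, Φ z s) ∧ (s, Φ z s) ∈ Ω := by
          rcases lt_or_ge s x with hsx | hsx
          · have hsK : (s, Φ z s) ∈ K := hxS s ⟨hs.1, hsx.le⟩
            exact (eventually_nhdsSet_iff_forall.1 hev _ hsK).self_of_nhds
          · exact hu' ⟨hsx, hs.2.trans_lt hcu⟩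
        refine ⟨heq.2, ?_⟩
        rw [← heq.1]
        exact (hder s hs1).mono (Icc_subset_Icc_right hc1)
      have := trap c ⟨hc0, hc1⟩ (Φ z) (by rw [show Φ z 0 = z from h0]; exact hz) hsol
      exact this
    intro s hs
    exact hIcc hs s ⟨hs.1, le_rfl⟩
  have hgh : ∀ p ∈ K, h p = g p := fun p hp => (eventually_nhdsSet_iff_forall.1 hhK p hp).self_of_nhds
  refine ⟨Φ, fun z hz => ⟨(hΦ1 z (hsub hz)).1, fun s hs => ⟨key z hz s hs, ?_⟩⟩, ?_, ?_⟩
  · rw [← hgh _ (key z hz s hs)]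
    exact (hΦ1 z (hsub hz)).2 s hs
  · exact (hΦ2 1 (by simp)).continuousOn.mono hsub
  · intro w hw hsol s hs
    have htr := trap 1 (by simp) w hw hsol
    have h1 : EqOn w (Φ (w 0)) (Icc 0 1) := by
      refine ODE_solution_unique (v := fun s z => h (s, z)) (K := C) (hlip) ?_ ?_ ?_ ?_ ?_
      · exact HasDerivWithinAt.continuousOn fun s hs => (hsol s hs).2
      · intro s hs
        have hs' : s ∈ Icc (0 : ℝ) 1 := ⟨hs.1, hs.2.le⟩
        have := (hsol s hs').2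
        rw [← hgh _ (htr s hs')] at this
        exact this.mono_of_mem_nhdsWithin (Icc_mem_nhdsGE_of_mem hs)
      · exact HasDerivWithinAt.continuousOn (hΦ1 _ (hsub hw)).2
      · intro s hs
        have hs' : s ∈ Icc (0 : ℝ) 1 := ⟨hs.1, hs.2.le⟩
        exact ((hΦ1 _ (hsub hw)).2 s hs').mono_of_mem_nhdsWithin (Icc_mem_nhdsGE_of_mem hs)
      · exact (hΦ1 _ (hsub hw)).1.symm
    exact h1 hs

end Vale.Agent.P298
end
end

section

section

open Set Metric Filter Topology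
open scoped NNReal ContDiff Manifold

namespace Vale.Agent.P298

variable {X : Type*} [NormedAddCommGroup X] [NormedSpace ℂ X]

/-- A trajectory over the segment `s ↦ (c₀ + c₁ s) t`. -/
def Traj (G : Set (X × ℂ)) (u : X × ℂ → X) (c₀ c₁ : ℝ) (t : ℂ) (b : ℝ) (x : ℝ → X) : Prop :=
  ∀ s ∈ Icc (0 : ℝ) b, (x s, (c₀ + c₁ * s) • t) ∈ G ∧
    HasDerivWithinAt x (c₁ • t • u (x s, (c₀ + c₁ * s) • t)) (Icc 0 b) s

theorem Traj.reverse {G : Set (X × ℂ)} {u : X × ℂ → X} {c₀ c₁ : ℝ} {t : ℂ} {x : ℝ → X}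
    (h : Traj G u c₀ c₁ t 1 x) : Traj G u (c₀ + c₁) (-c₁) t 1 (fun s => x (1 - s)) := by
  intro s hs
  have hs' : 1 - s ∈ Icc (0 : ℝ) 1 := ⟨by linarith [hs.2], by linarith [hs.1]⟩
  have hmaps : MapsTo (fun v : ℝ => 1 - v) (Icc 0 1) (Icc 0 1) := fun v hv =>
    ⟨by linarith [hv.2], by linarith [hv.1]⟩
  have e1 : c₀ + c₁ + -c₁ * s = c₀ + c₁ * (1 - s) := by ring
  obtain ⟨h1, h2⟩ := h (1 - s) hs'
  rw [e1]
  refine ⟨h1, ?_⟩
  have h3 : HasDerivWithinAt (fun v : ℝ => 1 - v) (-1) (Icc 0 1) s := by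
    simpa using (hasDerivWithinAt_id s (Icc 0 1)).const_sub 1
  have h4 : HasDerivWithinAt (x ∘ fun v : ℝ => 1 - v)
      ((-1 : ℝ) • (c₁ • t • u (x (1 - s), (c₀ + c₁ * (1 - s)) • t))) (Icc 0 1) s :=
    HasDerivWithinAt.scomp s h2 h3 hmaps
  have e2 : (-1 : ℝ) • (c₁ • t • u (x (1 - s), (c₀ + c₁ * (1 - s)) • t)) =
      -c₁ • t • u (x (1 - s), (c₀ + c₁ * (1 - s)) • t) := by
    rw [smul_smul]; ring_nf
  rw [e2] at h4
  exact h4

variable [FiniteDimensional ℂ X]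

theorem exists_flow {η' : ℝ} {G : Set (X × ℂ)} (hG : IsOpen G)
    {u : X × ℂ → X} (hu : ContDiffOn ℝ 1 u G) {Q₀ Q C : Set (X × ℂ)} (hQ : IsOpen Q)
    (hC : IsCompact C) (hCG : ∀ p ∈ C, ‖p.2‖ ≤ η' → p ∉ Q → p ∈ G)
    (hQ0 : ∀ p ∈ Q₀, ‖p.2‖ ≤ η' → p ∈ C) {c₀ c₁ : ℝ}
    (hc : ∀ s ∈ Icc (0 : ℝ) 1, c₀ + c₁ * s ∈ Icc (0 : ℝ) 1)
    (b0 : ∀ t : ℂ, ‖t‖ ≤ η' → ∀ b ∈ Icc (0 : ℝ) 1, ∀ x, Traj G u c₀ c₁ t b x →
      ∀ s ∈ Icc 0 b, (x 0, c₀ • t) ∈ Q₀ → (x s, (c₀ + c₁ * s) • t) ∈ Q₀)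
    (b1 : ∀ t : ℂ, ‖t‖ ≤ η' → ∀ b ∈ Icc (0 : ℝ) 1, ∀ x, Traj G u c₀ c₁ t b x →
      ∀ s ∈ Icc 0 b, (x s, (c₀ + c₁ * s) • t) ∈ Q → (x 0, c₀ • t) ∈ Q) :
    ∃ Φ : X × ℂ → X,
      ContinuousOn Φ {p | ‖p.2‖ ≤ η' ∧ (p.1, c₀ • p.2) ∈ Q₀ ∧ (p.1, c₀ • p.2) ∉ Q} ∧
      ∀ p : X × ℂ, ‖p.2‖ ≤ η' → (p.1, c₀ • p.2) ∈ Q₀ → (p.1, c₀ • p.2) ∉ Q →
        (∃ x, Traj G u c₀ c₁ p.2 1 x ∧ x 0 = p.1 ∧ x 1 = Φ p) ∧
        (∀ x, Traj G u c₀ c₁ p.2 1 x → x 0 = p.1 → x 1 = Φ p) := by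
  have : FiniteDimensional ℝ X := FiniteDimensional.complexToReal X
  -- the bundled map
  set m : ℝ × (X × ℂ) → X × ℂ := fun q => (q.2.1, (c₀ + c₁ * q.1) • q.2.2) with hm
  have hmsm : ContDiff ℝ 1 m := by
    have e1 : ContDiff ℝ 1 (fun q : ℝ × (X × ℂ) => q.2.1) := contDiff_fst.comp contDiff_snd
    have e2 : ContDiff ℝ 1 (fun q : ℝ × (X × ℂ) => q.2.2) := contDiff_snd.comp contDiff_snd
    have e3 : ContDiff ℝ 1 (fun q : ℝ × (X × ℂ) => c₀ + c₁ * q.1) :=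
      contDiff_const.add (contDiff_const.mul contDiff_fst)
    exact e1.prodMk (e3.smul e2)
  have hmc : Continuous m := hmsm.continuous
  set Ω : Set (ℝ × (X × ℂ)) := m ⁻¹' G with hΩdef
  have hΩ : IsOpen Ω := hG.preimage hmc
  set g : ℝ × (X × ℂ) → X × ℂ := fun q => (c₁ • q.2.2 • u (m q), 0) with hgdef
  have hg : ContDiffOn ℝ 1 g Ω := by
    refine ContDiffOn.prodMk ?_ contDiffOn_const
    refine contDiffOn_const.smul ?_
    have h1 : ContDiffOn ℝ 1 (fun q : ℝ × (X × ℂ) => q.2.2) Ω :=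
      (contDiff_snd.comp contDiff_snd).contDiffOn
    have h2 : ContDiffOn ℝ 1 (fun q => u (m q)) Ω := hu.comp hmsm.contDiffOn (fun q hq => hq)
    exact h1.smul h2
  set K : Set (ℝ × (X × ℂ)) :=
    {q | q.1 ∈ Icc (0 : ℝ) 1 ∧ ‖q.2.2‖ ≤ η' ∧ m q ∈ C ∧ m q ∉ Q} with hKdef
  have hKclosed : IsClosed K := by
    refine IsClosed.inter (isClosed_Icc.preimage continuous_fst) ?_
    refine IsClosed.inter (isClosed_le
      (continuous_snd.comp continuous_snd).norm continuous_const) ?_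
    exact IsClosed.inter (hC.isClosed.preimage hmc) (hQ.isClosed_compl.preimage hmc)
  have hKbdd : Bornology.IsBounded K := by
    obtain ⟨R, hR⟩ := hC.isBounded.subset_closedBall 0
    refine (Metric.isBounded_closedBall (x := (0 : ℝ × (X × ℂ))) (r := max 1 (max R η'))).subset ?_
    intro q hq
    obtain ⟨h1, h2, h3, -⟩ := hq
    rw [mem_closedBall_zero_iff, Prod.norm_def, Prod.norm_def]
    have h4 := hR h3
    rw [mem_closedBall_zero_iff, Prod.norm_def] at h4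
    have h5 : ‖q.2.1‖ ≤ R := (le_max_left _ _).trans h4
    have h6 : ‖q.1‖ ≤ 1 := by
      rw [Real.norm_eq_abs, abs_le]; exact ⟨by linarith [h1.1], h1.2⟩
    exact max_le (h6.trans (le_max_left _ _)) (max_le (h5.trans ((le_max_left _ _).trans
      (le_max_right _ _))) (h2.trans ((le_max_right _ _).trans (le_max_right _ _))))
  have hK : IsCompact K := Metric.isCompact_of_isClosed_isBounded hKclosed hKbdd
  have hscale : ∀ s ∈ Icc (0 : ℝ) 1, ∀ t : ℂ, ‖t‖ ≤ η' → ‖(c₀ + c₁ * s) • t‖ ≤ η' := by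
    intro s hs t ht
    rw [norm_smul, Real.norm_eq_abs, abs_of_nonneg (hc s hs).1]
    calc (c₀ + c₁ * s) * ‖t‖ ≤ 1 * ‖t‖ := by
          gcongr
          exact (hc s hs).2
      _ ≤ η' := by rw [one_mul]; exact ht
  have hKΩ : K ⊆ Ω := by
    intro q hq
    exact hCG _ hq.2.2.1 (hscale _ hq.1 _ hq.2.1) hq.2.2.2
  set K₀ : Set (X × ℂ) := {p | ‖p.2‖ ≤ η' ∧ (p.1, c₀ • p.2) ∈ Q₀ ∧ (p.1, c₀ • p.2) ∉ Q} with hK₀def
  have hc00 : ‖c₀‖ ≤ 1 := by
    have := hc 0 (by simp)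
    rw [mul_zero, add_zero] at this
    rw [Real.norm_eq_abs, abs_of_nonneg this.1]; exact this.2
  have hK₀ : ∀ z ∈ K₀, ((0 : ℝ), z) ∈ K := by
    intro z hz
    obtain ⟨h1, h2, h3⟩ := hz
    have e : m (0, z) = (z.1, c₀ • z.2) := by simp [hm]
    refine ⟨by simp, h1, ?_, ?_⟩
    · rw [e]
      refine hQ0 _ h2 ?_
      have := hscale 0 (by simp) z.2 h1
      simpa using this
    · rw [e]; exact h3
  -- second components of trajectories are constant
  have hsnd : ∀ b ∈ Icc (0 : ℝ) 1, ∀ z : ℝ → X × ℂ,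
      (∀ s ∈ Icc (0 : ℝ) b, (s, z s) ∈ Ω ∧ HasDerivWithinAt z (g (s, z s)) (Icc 0 b) s) →
      (∀ s ∈ Icc (0 : ℝ) b, (z s).2 = (z 0).2) ∧
      Traj G u c₀ c₁ (z 0).2 b (fun s => (z s).1) := by
    intro b hb z hz
    have hz2 : ∀ s ∈ Icc (0 : ℝ) b, HasDerivWithinAt (fun s => (z s).2) 0 (Icc 0 b) s := by
      intro s hs
      have := (hz s hs).2
      exact (hasFDerivAt_snd (𝕜 := ℝ) (p := z s)).comp_hasDerivWithinAt s this
    have hconst : ∀ s ∈ Icc (0 : ℝ) b, (z s).2 = (z 0).2 := by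
      refine constant_of_has_deriv_right_zero
        (HasDerivWithinAt.continuousOn (f' := fun _ => 0) hz2) ?_
      intro s hs
      exact (hz2 s ⟨hs.1, hs.2.le⟩).mono_of_mem_nhdsWithin (Icc_mem_nhdsGE_of_mem hs)
    refine ⟨hconst, ?_⟩
    intro s hs
    have h1 := (hz s hs).1
    have h2 := (hz s hs).2
    have e : m (s, z s) = ((z s).1, (c₀ + c₁ * s) • (z 0).2) := by
      simp only [hm]
      rw [hconst s hs]
    refine ⟨?_, ?_⟩
    · have : m (s, z s) ∈ G := h1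
      rw [e] at this
      exact this
    · have h3 : HasDerivWithinAt (fun s => (z s).1) (g (s, z s)).1 (Icc 0 b) s :=
        (hasFDerivAt_fst (𝕜 := ℝ) (p := z s)).comp_hasDerivWithinAt s h2
      have e2 : (g (s, z s)).1 = c₁ • (z 0).2 • u ((z s).1, (c₀ + c₁ * s) • (z 0).2) := by
        simp only [hgdef]
        rw [e, hconst s hs]
      rw [e2] at h3
      exact h3
  have trap : ∀ b ∈ Icc (0 : ℝ) 1, ∀ z : ℝ → X × ℂ, z 0 ∈ K₀ →
      (∀ s ∈ Icc (0 : ℝ) b, (s, z s) ∈ Ω ∧ HasDerivWithinAt z (g (s, z s)) (Icc 0 b) s) →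
      ∀ s ∈ Icc (0 : ℝ) b, (s, z s) ∈ K := by
    intro b hb z hz0 hz s hs
    obtain ⟨hconst, htraj⟩ := hsnd b hb z hz
    obtain ⟨h1, h2, h3⟩ := hz0
    have hs1 : s ∈ Icc (0 : ℝ) 1 := ⟨hs.1, hs.2.trans hb.2⟩
    have e : m (s, z s) = ((z s).1, (c₀ + c₁ * s) • (z 0).2) := by
      simp only [hm]
      rw [hconst s hs]
    have hQ0s := b0 _ h1 b hb _ htraj s hs h2
    have hQs : ((z s).1, (c₀ + c₁ * s) • (z 0).2) ∉ Q := fun h => h3 (b1 _ h1 b hb _ htraj s hs h)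
    refine ⟨hs1, ?_, ?_, ?_⟩
    · simp only
      rw [hconst s hs]; exact h1
    · rw [e]
      exact hQ0 _ hQ0s (hscale s hs1 _ h1)
    · rw [e]; exact hQs
  obtain ⟨Φ, hΦ1, hΦ2, hΦ3⟩ := trapped_flow g Ω hΩ hg K hK hKΩ K₀ hK₀ trap
  refine ⟨fun p => (Φ p 1).1, continuous_fst.comp_continuousOn hΦ2, ?_⟩
  intro p hp1 hp2 hp3
  have hpK₀ : p ∈ K₀ := ⟨hp1, hp2, hp3⟩
  obtain ⟨h0, hsol⟩ := hΦ1 p hpK₀
  have hsol' : ∀ s ∈ Icc (0 : ℝ) 1, (s, Φ p s) ∈ Ω ∧
      HasDerivWithinAt (Φ p) (g (s, Φ p s)) (Icc 0 1) s := fun s hs =>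
    ⟨hKΩ (hsol s hs).1, (hsol s hs).2⟩
  obtain ⟨hconst, htraj⟩ := hsnd 1 (by simp) (Φ p) hsol'
  rw [h0] at htraj
  refine ⟨⟨fun s => (Φ p s).1, htraj, by simp only [h0], rfl⟩, ?_⟩
  intro x hx hx0
  have hw := hΦ3 (fun s => (x s, p.2)) (by
    rw [hx0]; exact hpK₀) (by
    intro s hs
    obtain ⟨h1, h2⟩ := hx s hs
    refine ⟨h1, ?_⟩
    exact h2.prodMk (hasDerivWithinAt_const s _ _)) 1 (by simp)
  have e0 : (x 0, p.2) = p := by rw [hx0]
  simp only [e0] at hw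
  simp only [← hw]

/-- The endpoint map in one direction. -/
theorem exists_endpoint {η' : ℝ} {G : Set (X × ℂ)} (hG : IsOpen G)
    (hG0 : ∀ p ∈ G, p.1 ≠ 0)
    {u : X × ℂ → X} (hu : ContDiffOn ℝ 1 u G) {Q : ℕ → Set (X × ℂ)} {C : Set (X × ℂ)}
    (hQ : ∀ k, IsOpen (Q k)) (hQ0k : ∀ k, Q k ⊆ Q 0)
    (haxis : ∀ k, ∀ t : ℂ, ‖t‖ ≤ η' → ((0 : X), t) ∈ Q k)
    (hC : IsCompact C) (hCG : ∀ p ∈ C, ‖p.2‖ ≤ η' → p.1 ≠ 0 → p ∈ G)
    (hQC : ∀ p ∈ Q 0, ‖p.2‖ ≤ η' → p ∈ C)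
    (hshrink : ∀ δ > 0, ∃ k, ∀ p ∈ Q k, ‖p.2‖ ≤ η' → ‖p.1‖ < δ) {c₀ c₁ : ℝ}
    (hc : ∀ s ∈ Icc (0 : ℝ) 1, c₀ + c₁ * s ∈ Icc (0 : ℝ) 1)
    (bar : ∀ k, ∀ t : ℂ, ‖t‖ ≤ η' → ∀ b ∈ Icc (0 : ℝ) 1, ∀ x, Traj G u c₀ c₁ t b x →
      ∀ s ∈ Icc 0 b, ((x 0, c₀ • t) ∈ Q k ↔ (x s, (c₀ + c₁ * s) • t) ∈ Q k)) :
    ∃ φ : X × ℂ → X,
      ContinuousOn φ {p | ‖p.2‖ < η' ∧ (p.1, c₀ • p.2) ∈ Q 0} ∧
      (∀ p : X × ℂ, p.1 = 0 → φ p = 0) ∧
      (∀ p : X × ℂ, ‖p.2‖ < η' → (p.1, c₀ • p.2) ∈ Q 0 → p.1 ≠ 0 →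
        (∃ x, Traj G u c₀ c₁ p.2 1 x ∧ x 0 = p.1 ∧ x 1 = φ p) ∧
        (∀ x, Traj G u c₀ c₁ p.2 1 x → x 0 = p.1 → x 1 = φ p)) ∧
      (∀ p : X × ℂ, ‖p.2‖ < η' → (p.1, c₀ • p.2) ∈ Q 0 → (φ p, (c₀ + c₁) • p.2) ∈ Q 0) := by
  classical
  have hscale : ∀ s ∈ Icc (0 : ℝ) 1, ∀ t : ℂ, ‖t‖ ≤ η' → ‖(c₀ + c₁ * s) • t‖ ≤ η' := by
    intro s hs t ht
    rw [norm_smul, Real.norm_eq_abs, abs_of_nonneg (hc s hs).1]
    calc (c₀ + c₁ * s) * ‖t‖ ≤ 1 * ‖t‖ := by
          gcongr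
          exact (hc s hs).2
      _ ≤ η' := by rw [one_mul]; exact ht
  have hscale0 : ∀ t : ℂ, ‖t‖ ≤ η' → ‖c₀ • t‖ ≤ η' := fun t ht => by
    have := hscale 0 (by simp) t ht
    simpa using this
  have hflow : ∀ k, ∃ Φ : X × ℂ → X,
      ContinuousOn Φ {p | ‖p.2‖ ≤ η' ∧ (p.1, c₀ • p.2) ∈ Q 0 ∧ (p.1, c₀ • p.2) ∉ Q k} ∧
      ∀ p : X × ℂ, ‖p.2‖ ≤ η' → (p.1, c₀ • p.2) ∈ Q 0 → (p.1, c₀ • p.2) ∉ Q k →
        (∃ x, Traj G u c₀ c₁ p.2 1 x ∧ x 0 = p.1 ∧ x 1 = Φ p) ∧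
        (∀ x, Traj G u c₀ c₁ p.2 1 x → x 0 = p.1 → x 1 = Φ p) := by
    intro k
    refine exists_flow hG hu (hQ k) hC ?_ hQC hc
      (fun t ht b hb x hx s hs h => (bar 0 t ht b hb x hx s hs).1 h)
      (fun t ht b hb x hx s hs h => (bar k t ht b hb x hx s hs).2 h)
    intro p hp hp2 hpQ
    refine hCG p hp hp2 ?_
    intro h0
    apply hpQ
    have : p = (0, p.2) := by rw [← h0]
    rw [this]
    exact haxis k _ hp2
  choose Φ hΦc hΦ using hflow
  set φ : X × ℂ → X := fun p =>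
    if h : ∃ x, Traj G u c₀ c₁ p.2 1 x ∧ x 0 = p.1 then (Classical.choose h) 1 else 0 with hφdef
  -- every nonzero point is outside some `Q k`
  have hout : ∀ p : X × ℂ, ‖p.2‖ ≤ η' → p.1 ≠ 0 → ∃ k, ∀ q : X × ℂ, ‖q.2‖ ≤ η' →
      ‖p.1‖ / 2 < ‖q.1‖ → (q.1, c₀ • q.2) ∉ Q k := by
    intro p hp2 hp
    obtain ⟨k, hk⟩ := hshrink (‖p.1‖ / 2) (by positivity)
    refine ⟨k, fun q hq hq1 hmem => ?_⟩
    have := hk _ hmem (hscale0 _ hq)
    exact absurd this (not_lt.2 hq1.le)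
  have hφ : ∀ k, ∀ p : X × ℂ, ‖p.2‖ ≤ η' → (p.1, c₀ • p.2) ∈ Q 0 → (p.1, c₀ • p.2) ∉ Q k →
      φ p = Φ k p := by
    intro k p h1 h2 h3
    obtain ⟨⟨x, hx, hx0, hx1⟩, huniq⟩ := hΦ k p h1 h2 h3
    have hex : ∃ x, Traj G u c₀ c₁ p.2 1 x ∧ x 0 = p.1 := ⟨x, hx, hx0⟩
    simp only [hφdef]
    rw [dif_pos hex]
    have hs := Classical.choose_spec hex
    exact huniq _ hs.1 hs.2
  have hφ0 : ∀ p : X × ℂ, p.1 = 0 → φ p = 0 := by
    intro p hp
    simp only [hφdef]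
    rw [dif_neg]
    rintro ⟨x, hx, hx0⟩
    have := (hx 0 (by simp)).1
    exact hG0 _ this (by simp only [hx0, hp])
  have hmem : ∀ k, ∀ p : X × ℂ, ‖p.2‖ ≤ η' → (p.1, c₀ • p.2) ∈ Q k →
      (φ p, (c₀ + c₁) • p.2) ∈ Q k := by
    intro k p h1 h2
    by_cases hp : p.1 = 0
    · rw [hφ0 p hp]
      refine haxis k _ ?_
      have := hscale 1 (by simp) p.2 h1
      simpa using this
    · obtain ⟨j, hj⟩ := hout p h1 hp
      have hpj : (p.1, c₀ • p.2) ∉ Q j := hj p h1 (by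
        have : 0 < ‖p.1‖ := norm_pos_iff.2 hp
        linarith)
      have hp0 : (p.1, c₀ • p.2) ∈ Q 0 := hQ0k k h2
      obtain ⟨⟨x, hx, hx0, hx1⟩, -⟩ := hΦ j p h1 hp0 hpj
      rw [hφ j p h1 hp0 hpj, ← hx1]
      have hb := (bar k p.2 h1 1 (by simp) x hx 1 (by simp)).1 (by rw [hx0]; exact h2)
      simpa using hb
  refine ⟨φ, ?_, hφ0, ?_, fun p h1 h2 => hmem 0 p h1.le h2⟩
  · intro p hp
    obtain ⟨h1, h2⟩ := hp
    by_cases hp0 : p.1 = 0
    · -- continuity on the axis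
      rw [ContinuousWithinAt, hφ0 p hp0, Metric.tendsto_nhdsWithin_nhds]
      intro δ hδ
      obtain ⟨k, hk⟩ := hshrink δ hδ
      have hopen : IsOpen {q : X × ℂ | (q.1, c₀ • q.2) ∈ Q k} :=
        (hQ k).preimage (continuous_fst.prodMk (continuous_snd.const_smul c₀))
      have hpk : p ∈ {q : X × ℂ | (q.1, c₀ • q.2) ∈ Q k} := by
        change (p.1, c₀ • p.2) ∈ Q k
        rw [hp0]
        exact haxis k _ (hscale0 _ h1.le)
      obtain ⟨ρ, hρ, hball⟩ := Metric.isOpen_iff.1 hopen p hpk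
      refine ⟨ρ, hρ, ?_⟩
      intro q hq hqd
      have hqk : (q.1, c₀ • q.2) ∈ Q k := hball hqd
      have h3 := hmem k q hq.1.le hqk
      have h4 := hk _ h3 (by
        have := hscale 1 (by simp) q.2 hq.1.le
        simpa using this)
      rw [dist_zero_right]
      exact h4
    · obtain ⟨k, hk⟩ := hout p h1.le hp0
      have hpos : 0 < ‖p.1‖ := norm_pos_iff.2 hp0
      have hU : {q : X × ℂ | ‖p.1‖ / 2 < ‖q.1‖} ∈ 𝓝 p := by
        refine (isOpen_lt continuous_const continuous_fst.norm).mem_nhds ?_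
        change ‖p.1‖ / 2 < ‖p.1‖
        linarith
      have hpk : (p.1, c₀ • p.2) ∉ Q k := hk p h1.le (by linarith)
      have hc1 : ContinuousWithinAt (Φ k)
          {p | ‖p.2‖ ≤ η' ∧ (p.1, c₀ • p.2) ∈ Q 0 ∧ (p.1, c₀ • p.2) ∉ Q k} p :=
        hΦc k p ⟨h1.le, h2, hpk⟩
      have hc2 : ContinuousWithinAt (Φ k)
          ({p : X × ℂ | ‖p.2‖ < η' ∧ (p.1, c₀ • p.2) ∈ Q 0} ∩ {q : X × ℂ | ‖p.1‖ / 2 < ‖q.1‖}) p :=
        hc1.mono fun q hq => ⟨hq.1.1.le, hq.1.2, hk q hq.1.1.le hq.2⟩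
      have hc3 : ContinuousWithinAt φ
          ({p : X × ℂ | ‖p.2‖ < η' ∧ (p.1, c₀ • p.2) ∈ Q 0} ∩ {q : X × ℂ | ‖p.1‖ / 2 < ‖q.1‖}) p :=
        hc2.congr (fun q hq => hφ k q hq.1.1.le hq.1.2 (hk q hq.1.1.le hq.2))
          (hφ k p h1.le h2 hpk)
      exact (continuousWithinAt_inter hU).1 hc3
  · intro p h1 h2 hp0
    obtain ⟨k, hk⟩ := hout p h1.le hp0
    have hpos : 0 < ‖p.1‖ := norm_pos_iff.2 hp0
    have hpk : (p.1, c₀ • p.2) ∉ Q k := hk p h1.le (by linarith)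
    rw [hφ k p h1.le h2 hpk]
    exact hΦ k p h1.le h2 hpk

/-- The flow homeomorphism. -/
theorem exists_homeo {η' : ℝ} {G : Set (X × ℂ)} (hG : IsOpen G)
    (hG0 : ∀ p ∈ G, p.1 ≠ 0)
    {u : X × ℂ → X} (hu : ContDiffOn ℝ 1 u G) {Q : ℕ → Set (X × ℂ)} {C : Set (X × ℂ)}
    (hQ : ∀ k, IsOpen (Q k)) (hQ0k : ∀ k, Q k ⊆ Q 0)
    (haxis : ∀ k, ∀ t : ℂ, ‖t‖ ≤ η' → ((0 : X), t) ∈ Q k)
    (hC : IsCompact C) (hCG : ∀ p ∈ C, ‖p.2‖ ≤ η' → p.1 ≠ 0 → p ∈ G)
    (hQC : ∀ p ∈ Q 0, ‖p.2‖ ≤ η' → p ∈ C)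
    (hshrink : ∀ δ > 0, ∃ k, ∀ p ∈ Q k, ‖p.2‖ ≤ η' → ‖p.1‖ < δ)
    (bar : ∀ k, ∀ c₀ c₁ : ℝ, (∀ s ∈ Icc (0 : ℝ) 1, c₀ + c₁ * s ∈ Icc (0 : ℝ) 1) →
      ∀ t : ℂ, ‖t‖ ≤ η' → ∀ b ∈ Icc (0 : ℝ) 1, ∀ x, Traj G u c₀ c₁ t b x →
      ∀ s ∈ Icc 0 b, ((x 0, c₀ • t) ∈ Q k ↔ (x s, (c₀ + c₁ * s) • t) ∈ Q k)) :
    ∃ e : OpenPartialHomeomorph (X × ℂ) (X × ℂ),
      e.source = {p | ‖p.2‖ < η' ∧ (p.1, 0) ∈ Q 0} ∧
      e.target = {p | ‖p.2‖ < η' ∧ p ∈ Q 0} ∧
      (∀ p, (e p).2 = p.2) ∧ (∀ t, e (0, t) = (0, t)) ∧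
      ∀ p ∈ e.source, p.1 ≠ 0 → ∃ x, Traj G u 0 1 p.2 1 x ∧ x 0 = p.1 ∧ x 1 = (e p).1 := by
  have hc1 : ∀ s ∈ Icc (0 : ℝ) 1, (0 : ℝ) + 1 * s ∈ Icc (0 : ℝ) 1 := fun s hs => by
    rw [zero_add, one_mul]; exact hs
  have hc2 : ∀ s ∈ Icc (0 : ℝ) 1, (1 : ℝ) + (-1) * s ∈ Icc (0 : ℝ) 1 := fun s hs =>
    ⟨by linarith [hs.2], by linarith [hs.1]⟩
  obtain ⟨φ, φc, φ0, φt, φQ⟩ := exists_endpoint (c₀ := 0) (c₁ := 1) hG hG0 hu hQ hQ0k haxis hC hCG
    hQC hshrink hc1 (fun k => bar k 0 1 hc1)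
  obtain ⟨ψ, ψc, ψ0, ψt, ψQ⟩ := exists_endpoint (c₀ := 1) (c₁ := -1) hG hG0 hu hQ hQ0k haxis hC hCG
    hQC hshrink hc2 (fun k => bar k 1 (-1) hc2)
  simp only [zero_smul, one_smul, zero_add, add_neg_cancel] at φc φt φQ ψc ψt ψQ
  have hleft : ∀ p : X × ℂ, ‖p.2‖ < η' → (p.1, (0 : ℂ)) ∈ Q 0 → ψ (φ p, p.2) = p.1 := by
    intro p h1 h2
    by_cases hp : p.1 = 0
    · rw [φ0 p hp, ψ0 (0, p.2) rfl, hp]
    · obtain ⟨⟨x, hx, hx0, hx1⟩, -⟩ := φt p h1 h2 hp
      have hne : φ p ≠ 0 := by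
        rw [← hx1]
        exact hG0 _ (hx 1 (by simp)).1
      have hrev := hx.reverse
      rw [zero_add] at hrev
      have := (ψt (φ p, p.2) h1 (φQ p h1 h2) hne).2 _ hrev (by simp [hx1])
      simp only [sub_self] at this
      rw [← this, hx0]
  have hright : ∀ p : X × ℂ, ‖p.2‖ < η' → (p.1, p.2) ∈ Q 0 → φ (ψ p, p.2) = p.1 := by
    intro p h1 h2
    by_cases hp : p.1 = 0
    · rw [ψ0 p hp, φ0 (0, p.2) rfl, hp]
    · obtain ⟨⟨x, hx, hx0, hx1⟩, -⟩ := ψt p h1 h2 hp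
      have hne : ψ p ≠ 0 := by
        rw [← hx1]
        exact hG0 _ (hx 1 (by simp)).1
      have hrev := hx.reverse
      rw [add_neg_cancel, neg_neg] at hrev
      have := (φt (ψ p, p.2) h1 (ψQ p h1 h2) hne).2 _ hrev (by simp [hx1])
      simp only [sub_self] at this
      rw [← this, hx0]
  have ho1 : IsOpen {p : X × ℂ | ‖p.2‖ < η' ∧ (p.1, (0 : ℂ)) ∈ Q 0} :=
    (isOpen_lt continuous_snd.norm continuous_const).inter
      ((hQ 0).preimage (continuous_fst.prodMk continuous_const))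
  have ho2 : IsOpen {p : X × ℂ | ‖p.2‖ < η' ∧ p ∈ Q 0} :=
    (isOpen_lt continuous_snd.norm continuous_const).inter (hQ 0)
  refine ⟨{ toFun := fun p => (φ p, p.2)
            invFun := fun p => (ψ p, p.2)
            source := {p | ‖p.2‖ < η' ∧ (p.1, 0) ∈ Q 0}
            target := {p | ‖p.2‖ < η' ∧ p ∈ Q 0}
            map_source' := fun p hp => ⟨hp.1, φQ p hp.1 hp.2⟩
            map_target' := fun p hp => ⟨hp.1, ψQ p hp.1 hp.2⟩
            left_inv' := fun p hp => by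
              simp only [hleft p hp.1 hp.2]
            right_inv' := fun p hp => by
              simp only [hright p hp.1 hp.2]
            open_source := ho1
            open_target := ho2
            continuousOn_toFun := φc.prodMk continuousOn_snd
            continuousOn_invFun := ψc.prodMk continuousOn_snd }, rfl, rfl, fun p => rfl, ?_, ?_⟩
  · intro t
    change (φ (0, t), t) = (0, t)
    rw [φ0 _ rfl]
  · intro p hp hp0
    exact (φt p hp.1 hp.2 hp0).1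

end Vale.Agent.P298
end
end

section

section

open Set Metric Filter Topology
open scoped NNReal ContDiff Manifold

namespace Vale.Agent.P298

/-- Gluing local `C^1` selections of a convex valued map over an open set. -/
theorem exists_selection {Z X : Type*} [NormedAddCommGroup Z] [NormedSpace ℝ Z]
    [FiniteDimensional ℝ Z] [NormedAddCommGroup X] [NormedSpace ℝ X]
    {G : Set Z} (hG : IsOpen G) (t : Z → Set X) (ht : ∀ p ∈ G, Convex ℝ (t p))
    (hloc : ∀ p₀ ∈ G, ∃ g : Z → X, ContDiffAt ℝ 1 g p₀ ∧ ∀ᶠ p in 𝓝 p₀, g p ∈ t p) :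
    ∃ u : Z → X, ContDiffOn ℝ 1 u G ∧ ∀ p ∈ G, u p ∈ t p := by
  classical
  let M : TopologicalSpace.Opens Z := ⟨G, hG⟩
  have : ProperSpace Z := FiniteDimensional.proper ℝ Z
  have : LocallyCompactSpace M := hG.locallyCompactSpace
  have : SecondCountableTopology Z := inferInstance
  have : SigmaCompactSpace M := inferInstance
  obtain ⟨g, hg⟩ := exists_contMDiffMap_forall_mem_convex_of_local (n := 1) 𝓘(ℝ, Z)
    (M := M) (F := X) (t := fun x : M => t x.1) (fun x => ht x.1 x.2) (by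
      intro x
      obtain ⟨g, hg1, hg2⟩ := hloc x.1 x.2
      have hg1' : ∀ᶠ p in 𝓝 x.1, ContDiffAt ℝ 1 g p := hg1.eventually (by simp)
      have hev : ∀ᶠ p in 𝓝 x.1, ContDiffAt ℝ 1 g p ∧ g p ∈ t p := hg1'.and hg2
      have hev' : ∀ᶠ p : M in 𝓝 x, ContDiffAt ℝ 1 g p.1 ∧ g p.1 ∈ t p.1 :=
        (continuous_subtype_val.tendsto x).eventually hev
      refine ⟨{p : M | ContDiffAt ℝ 1 g p.1 ∧ g p.1 ∈ t p.1}, hev', fun p => g p.1, ?_, ?_⟩
      · intro p hp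
        exact (contMDiffAt_subtype_iff.2 hp.1.contMDiffAt).contMDiffWithinAt
      · intro y hy
        exact hy.2)
  refine ⟨fun p => if h : p ∈ G then g ⟨p, h⟩ else 0, ?_, ?_⟩
  · intro p hp
    have h1 : ContMDiffAt 𝓘(ℝ, Z) 𝓘(ℝ, X) 1
        (fun p => if h : p ∈ G then g (⟨p, h⟩ : M) else 0) (⟨p, hp⟩ : M).1 := by
      rw [← contMDiffAt_subtype_iff (U := M)]
      have h2 := g.contMDiff (⟨p, hp⟩ : M)
      refine h2.congr_of_eventuallyEq (Eventually.of_forall fun q => ?_)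
      have hq : q.1 ∈ G := q.2
      simp [hq]
    exact (contMDiffAt_iff_contDiffAt.1 h1).contDiffWithinAt
  · intro p hp
    simp only [hp, dif_pos]
    exact hg ⟨p, hp⟩

theorem exists_local_solution {Z X W : Type*} [NormedAddCommGroup Z] [NormedSpace ℝ Z]
    [NormedAddCommGroup X] [NormedSpace ℂ X] [NormedAddCommGroup W] [NormedSpace ℂ W]
    [FiniteDimensional ℂ W] {L : Z → X →L[ℂ] W} {b : Z → W} {p₀ : Z}
    (hL : ContDiffAt ℝ 1 L p₀) (hb : ContDiffAt ℝ 1 b p₀) (hs : Function.Surjective (L p₀)) :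
    ∃ g : Z → X, ContDiffAt ℝ 1 g p₀ ∧ ∀ᶠ p in 𝓝 p₀, L p (g p) = b p := by
  have : CompleteSpace W := FiniteDimensional.complete ℂ W
  obtain ⟨R₀, hR₀⟩ := (L p₀ : X →ₗ[ℂ] W).exists_rightInverse_of_surjective
    (LinearMap.range_eq_top.2 hs)
  set R : W →L[ℂ] X := LinearMap.toContinuousLinearMap R₀ with hR
  have hLR : (L p₀).comp R = ContinuousLinearMap.id ℂ W := by
    ext w
    have := LinearMap.congr_fun hR₀ w
    simpa [hR] using this
  have hA : ContDiffAt ℝ 1 (fun p => (L p).comp R) p₀ := by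
    have h1 : ContDiff ℝ 1 (fun A : X →L[ℂ] W => A.comp R) := by
      have : ContDiff ℂ 1 (fun A : X →L[ℂ] W => A.comp R) :=
        ((ContinuousLinearMap.compL ℂ W X W).flip R).contDiff
      exact this.restrict_scalars ℝ
    exact h1.contDiffAt.comp p₀ hL
  have hinv : ContDiffAt ℝ 1 (ContinuousLinearMap.inverse : (W →L[ℂ] W) → (W →L[ℂ] W))
      ((L p₀).comp R) := by
    rw [hLR]
    exact (contDiffAt_map_inverse (𝕜 := ℂ) (ContinuousLinearEquiv.refl ℂ W)).restrict_scalars ℝ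
  have hB : ContDiffAt ℝ 1 (fun p => ((L p).comp R).inverse) p₀ :=
    ContDiffAt.comp (f := fun p => (L p).comp R)
      (g := (ContinuousLinearMap.inverse : (W →L[ℂ] W) → (W →L[ℂ] W))) p₀ hinv hA
  refine ⟨fun p => R (((L p).comp R).inverse (b p)), ?_, ?_⟩
  · have hR' : ContDiff ℝ 1 (fun w => R w) := R.contDiff.restrict_scalars ℝ
    refine hR'.contDiffAt.comp p₀ ?_
    have happ : ContDiff ℝ 1 (fun q : (W →L[ℂ] W) × W => q.1 q.2) := by
      have : ContDiff ℂ 1 (fun q : (W →L[ℂ] W) × W => q.1 q.2) :=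
        isBoundedBilinearMap_apply.contDiff
      exact this.restrict_scalars ℝ
    exact happ.contDiffAt.comp p₀ (hB.prodMk hb)
  · -- near `p₀` the composition is invertible
    have hunit : ∀ᶠ A in 𝓝 ((L p₀).comp R), IsUnit A := by
      rw [hLR]
      exact Units.isOpen.mem_nhds (isUnit_one (M := W →L[ℂ] W))
    have hev := hA.continuousAt.eventually hunit
    filter_upwards [hev] with p hp
    obtain ⟨v, hv⟩ := hp
    have h1 : ((L p).comp R) (((L p).comp R).inverse (b p)) = b p := by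
      rw [← hv]
      have h2 : ((v : W →L[ℂ] W)).inverse = ((v⁻¹ : (W →L[ℂ] W)ˣ) : W →L[ℂ] W) := by
        rw [← ContinuousLinearMap.ringInverse_eq_inverse]
        exact Ring.inverse_unit v
      rw [h2]
      calc (v : W →L[ℂ] W) (((v⁻¹ : (W →L[ℂ] W)ˣ) : W →L[ℂ] W) (b p))
          = ((v : W →L[ℂ] W) * ((v⁻¹ : (W →L[ℂ] W)ˣ) : W →L[ℂ] W)) (b p) := rfl
        _ = b p := by rw [v.mul_inv]; rfl
    exact h1

theorem eventually_surjective {Z X W : Type*} [TopologicalSpace Z]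
    [NormedAddCommGroup X] [NormedSpace ℂ X] [NormedAddCommGroup W] [NormedSpace ℂ W]
    [FiniteDimensional ℂ W] {L : Z → X →L[ℂ] W} {p₀ : Z} {s : Set Z}
    (hL : ContinuousWithinAt L s p₀) (hs : Function.Surjective (L p₀)) :
    ∀ᶠ p in 𝓝[s] p₀, Function.Surjective (L p) := by
  have : CompleteSpace W := FiniteDimensional.complete ℂ W
  obtain ⟨R₀, hR₀⟩ := (L p₀ : X →ₗ[ℂ] W).exists_rightInverse_of_surjective
    (LinearMap.range_eq_top.2 hs)
  set R : W →L[ℂ] X := LinearMap.toContinuousLinearMap R₀ with hR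
  have hLR : (L p₀).comp R = ContinuousLinearMap.id ℂ W := by
    ext w
    have := LinearMap.congr_fun hR₀ w
    simpa [hR] using this
  have hc : Continuous (fun A : X →L[ℂ] W => A.comp R) :=
    ((ContinuousLinearMap.compL ℂ W X W).flip R).continuous
  have hA : Tendsto (fun p => (L p).comp R) (𝓝[s] p₀) (𝓝 ((L p₀).comp R)) :=
    (hc.tendsto _).comp hL
  have hunit : ∀ᶠ A in 𝓝 ((L p₀).comp R), IsUnit A := by
    rw [hLR]
    exact Units.isOpen.mem_nhds (isUnit_one (M := W →L[ℂ] W))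
  filter_upwards [hA.eventually hunit] with p hp
  obtain ⟨v, hv⟩ := hp
  intro w
  refine ⟨R (((v⁻¹ : (W →L[ℂ] W)ˣ) : W →L[ℂ] W) w), ?_⟩
  calc (L p) (R (((v⁻¹ : (W →L[ℂ] W)ˣ) : W →L[ℂ] W) w))
      = ((L p).comp R) (((v⁻¹ : (W →L[ℂ] W)ˣ) : W →L[ℂ] W) w) := rfl
    _ = (v : W →L[ℂ] W) (((v⁻¹ : (W →L[ℂ] W)ˣ) : W →L[ℂ] W) w) := by rw [hv]
    _ = ((v : W →L[ℂ] W) * ((v⁻¹ : (W →L[ℂ] W)ˣ) : W →L[ℂ] W)) w := rfl
    _ = w := by rw [v.mul_inv]; rfl

end Vale.Agent.P298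
end
end

section

section

open Set Metric Filter Topology

namespace Vale.Agent.P298

theorem eq_of_hasDerivWithinAt_zero {b c d : ℝ} {f : ℝ → ℂ} (hc : 0 ≤ c) (hd : d ≤ b)
    (hf : ∀ s ∈ Icc c d, HasDerivWithinAt f 0 (Icc 0 b) s) : ∀ s ∈ Icc c d, f s = f c := by
  have hsub : Icc c d ⊆ Icc 0 b := Icc_subset_Icc hc hd
  refine constant_of_has_deriv_right_zero
    (HasDerivWithinAt.continuousOn (f' := fun _ => 0) fun s hs => (hf s hs).mono hsub) ?_
  intro s hs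
  exact (hf s ⟨hs.1, hs.2.le⟩).mono_of_mem_nhdsWithin
    (Icc_mem_nhdsGE_of_mem ⟨hc.trans hs.1, hs.2.trans_le hd⟩)

/-- The scalar barrier argument. -/
theorem barrier_forward {b α β ε : ℝ} {a e h : ℝ → ℂ} (hαβ : α ≤ β) (hβ : 0 < β) (hε : 0 < ε)
    (ha : ∀ s ∈ Icc 0 b, a s = a 0)
    (hec : ContinuousOn e (Icc 0 b)) (hhc : ContinuousOn h (Icc 0 b))
    (he : ∀ s ∈ Icc 0 b, ‖a s‖ ≤ α → β / 2 ≤ ‖e s‖ → ‖e s‖ ≤ β → ‖h s‖ ≤ ε →
      HasDerivWithinAt e 0 (Icc 0 b) s)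
    (hh : ∀ s ∈ Icc 0 b, ‖a s‖ ≤ β → ‖e s‖ ≤ β → ε / 2 ≤ ‖h s‖ → ‖h s‖ ≤ ε →
      HasDerivWithinAt h 0 (Icc 0 b) s)
    (h0 : ‖a 0‖ < α ∧ ‖e 0‖ < β ∧ ‖h 0‖ < ε) :
    ∀ s ∈ Icc 0 b, ‖a s‖ < α ∧ ‖e s‖ < β ∧ ‖h s‖ < ε := by
  by_contra hcon
  push Not at hcon
  obtain ⟨s₀, hs₀, hbad⟩ := hcon
  set T : Set ℝ := {s ∈ Icc 0 b | β ≤ ‖e s‖} ∪ {s ∈ Icc 0 b | ε ≤ ‖h s‖} with hT
  have hTclosed : IsClosed T := by
    refine IsClosed.union ?_ ?_
    · exact (hec.norm.preimage_isClosed_of_isClosed isClosed_Icc isClosed_Ici)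
    · exact (hhc.norm.preimage_isClosed_of_isClosed isClosed_Icc isClosed_Ici)
  have hTsub : T ⊆ Icc 0 b := by
    rintro s (hs | hs)
    · exact hs.1
    · exact hs.1
  have hTne : T.Nonempty := by
    refine ⟨s₀, ?_⟩
    by_cases h1 : ‖e s₀‖ < β
    · exact Or.inr ⟨hs₀, hbad (by rw [ha s₀ hs₀]; exact h0.1) h1⟩
    · exact Or.inl ⟨hs₀, not_lt.1 h1⟩
  obtain ⟨s₁, hs₁T, hs₁⟩ := (isCompact_Icc.of_isClosed_subset hTclosed hTsub).exists_isLeast hTne
  have hs₁I : s₁ ∈ Icc 0 b := hTsub hs₁T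
  have hbefore : ∀ s ∈ Ico 0 s₁, ‖e s‖ < β ∧ ‖h s‖ < ε := by
    intro s hs
    have hsI : s ∈ Icc 0 b := ⟨hs.1, hs.2.le.trans hs₁I.2⟩
    constructor
    · by_contra hc
      exact absurd (hs₁ (Or.inl ⟨hsI, not_lt.1 hc⟩)) (not_le.2 hs.2)
    · by_contra hc
      exact absurd (hs₁ (Or.inr ⟨hsI, not_lt.1 hc⟩)) (not_le.2 hs.2)
  have hpos : 0 < s₁ := by
    rcases eq_or_lt_of_le hs₁I.1 with h | h
    · exfalso
      rw [← h] at hs₁T
      rcases hs₁T with h' | h'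
      · exact absurd h'.2 (not_le.2 h0.2.1)
      · exact absurd h'.2 (not_le.2 h0.2.2)
    · exact h
  -- at `s₁`, non-strict bounds hold
  have hsubI : Ico 0 s₁ ⊆ Icc 0 b := fun s hs => ⟨hs.1, hs.2.le.trans hs₁I.2⟩
  have hne : (𝓝[Ico 0 s₁] s₁).NeBot := by
    rw [← mem_closure_iff_nhdsWithin_neBot, closure_Ico hpos.ne]
    exact ⟨hpos.le, le_rfl⟩
  have hle_e : ‖e s₁‖ ≤ β := by
    have ht : Tendsto (fun s => ‖e s‖) (𝓝[Ico 0 s₁] s₁) (𝓝 ‖e s₁‖) :=
      (hec.norm s₁ hs₁I).mono hsubI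
    exact le_of_tendsto ht (eventually_mem_nhdsWithin.mono fun s hs => (hbefore s hs).1.le)
  have hle_h : ‖h s₁‖ ≤ ε := by
    have ht : Tendsto (fun s => ‖h s‖) (𝓝[Ico 0 s₁] s₁) (𝓝 ‖h s₁‖) :=
      (hhc.norm s₁ hs₁I).mono hsubI
    exact le_of_tendsto ht (eventually_mem_nhdsWithin.mono fun s hs => (hbefore s hs).2.le)
  -- a general tool: bounds from below near `s₁`
  have tool : ∀ (f : ℝ → ℂ) (ρ : ℝ), 0 < ρ → ContinuousOn f (Icc 0 b) → ρ ≤ ‖f s₁‖ →
      ∃ c ∈ Ico 0 s₁, ∀ s ∈ Icc c s₁, ρ / 2 ≤ ‖f s‖ := by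
    intro f ρ hρ hf hfs
    have h1 : ∀ᶠ s in 𝓝[Icc 0 b] s₁, ρ / 2 < ‖f s‖ := by
      have := (hf.norm s₁ hs₁I)
      exact this.eventually (lt_mem_nhds (by linarith))
    have h2 : ∀ᶠ s in 𝓝[≤] s₁, ρ / 2 < ‖f s‖ := by
      have : 𝓝[≤] s₁ ≤ 𝓝[Icc 0 b] s₁ := by
        rw [nhdsWithin_le_iff]
        filter_upwards [Ioc_mem_nhdsLE hpos] with s hs
        exact ⟨hs.1.le, hs.2.trans hs₁I.2⟩
      exact this h1
    obtain ⟨l, hl, hl'⟩ := mem_nhdsLE_iff_exists_Ioc_subset.1 h2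
    have hl2 : l < s₁ := hl
    refine ⟨max 0 ((l + s₁) / 2), ⟨le_max_left _ _, max_lt hpos (by linarith)⟩, ?_⟩
    intro s hs
    have : (l + s₁) / 2 ≤ s := (le_max_right _ _).trans hs.1
    exact (hl' ⟨by linarith, hs.2⟩).le
  have ha' : ∀ s ∈ Icc 0 b, ‖a s‖ ≤ α := fun s hs => by rw [ha s hs]; exact h0.1.le
  rcases hs₁T with hcase | hcase
  · -- `e` reaches `β`
    obtain ⟨c, hc, hc'⟩ := tool e β hβ hec hcase.2
    have hconst := eq_of_hasDerivWithinAt_zero (f := e) (b := b) (c := c) (d := s₁) hc.1 hs₁I.2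
      (fun s hs => by
        have hsI : s ∈ Icc 0 b := ⟨hc.1.trans hs.1, hs.2.trans hs₁I.2⟩
        refine he s hsI (ha' s hsI) (hc' s hs) ?_ ?_
        · rcases eq_or_lt_of_le hs.2 with h | h
          · rw [h]; exact hle_e
          · exact (hbefore s ⟨hc.1.trans hs.1, h⟩).1.le
        · rcases eq_or_lt_of_le hs.2 with h | h
          · rw [h]; exact hle_h
          · exact (hbefore s ⟨hc.1.trans hs.1, h⟩).2.le)
    have h1 := hconst s₁ ⟨hc.2.le, le_rfl⟩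
    have h2 := (hbefore c hc).1
    rw [← h1] at h2
    exact absurd hcase.2 (not_le.2 h2)
  · obtain ⟨c, hc, hc'⟩ := tool h ε hε hhc hcase.2
    have hconst := eq_of_hasDerivWithinAt_zero (f := h) (b := b) (c := c) (d := s₁) hc.1 hs₁I.2
      (fun s hs => by
        have hsI : s ∈ Icc 0 b := ⟨hc.1.trans hs.1, hs.2.trans hs₁I.2⟩
        refine hh s hsI ((ha' s hsI).trans hαβ) ?_ (hc' s hs) ?_
        · rcases eq_or_lt_of_le hs.2 with h | h
          · rw [h]; exact hle_e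
          · exact (hbefore s ⟨hc.1.trans hs.1, h⟩).1.le
        · rcases eq_or_lt_of_le hs.2 with h | h
          · rw [h]; exact hle_h
          · exact (hbefore s ⟨hc.1.trans hs.1, h⟩).2.le)
    have h1 := hconst s₁ ⟨hc.2.le, le_rfl⟩
    have h2 := (hbefore c hc).2
    rw [← h1] at h2
    exact absurd hcase.2 (not_le.2 h2)

/-- Two-sided version of the barrier. -/
theorem barrier_iff {b α β ε : ℝ} {a e h : ℝ → ℂ} (hαβ : α ≤ β) (hβ : 0 < β) (hε : 0 < ε)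
    (ha : ∀ s ∈ Icc 0 b, a s = a 0)
    (hec : ContinuousOn e (Icc 0 b)) (hhc : ContinuousOn h (Icc 0 b))
    (he : ∀ s ∈ Icc 0 b, ‖a s‖ ≤ α → β / 2 ≤ ‖e s‖ → ‖e s‖ ≤ β → ‖h s‖ ≤ ε →
      HasDerivWithinAt e 0 (Icc 0 b) s)
    (hh : ∀ s ∈ Icc 0 b, ‖a s‖ ≤ β → ‖e s‖ ≤ β → ε / 2 ≤ ‖h s‖ → ‖h s‖ ≤ ε →
      HasDerivWithinAt h 0 (Icc 0 b) s) :
    ∀ s ∈ Icc 0 b, ((‖a 0‖ < α ∧ ‖e 0‖ < β ∧ ‖h 0‖ < ε) ↔
      (‖a s‖ < α ∧ ‖e s‖ < β ∧ ‖h s‖ < ε)) := by
  intro s hs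
  constructor
  · intro h0
    exact barrier_forward hαβ hβ hε ha hec hhc he hh h0 s hs
  · intro hs'
    -- reverse time on `[0,s]`
    have hmaps : MapsTo (fun v => s - v) (Icc 0 s) (Icc 0 b) := fun v hv =>
      ⟨by linarith [hv.2], by linarith [hv.1, hs.2]⟩
    have hder : ∀ (f : ℝ → ℂ) (v : ℝ), v ∈ Icc 0 s → HasDerivWithinAt f 0 (Icc 0 b) (s - v) →
        HasDerivWithinAt (fun v => f (s - v)) 0 (Icc 0 s) v := by
      intro f v hv hf
      have h1 : HasDerivWithinAt (fun v => s - v) (-1) (Icc 0 s) v := by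
        simpa using (hasDerivWithinAt_id v (Icc 0 s)).const_sub s
      have h2 : HasDerivWithinAt (f ∘ fun v => s - v) ((-1 : ℝ) • (0 : ℂ)) (Icc 0 s) v :=
        HasDerivWithinAt.scomp v hf h1 hmaps
      rw [smul_zero] at h2
      exact h2
    have key := barrier_forward (b := s) (a := fun v => a (s - v)) (e := fun v => e (s - v))
      (h := fun v => h (s - v)) hαβ hβ hε
      (fun v hv => by
        simp only [sub_zero]
        rw [ha _ (hmaps hv), ha _ hs])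
      (hec.comp (by fun_prop) hmaps) (hhc.comp (by fun_prop) hmaps)
      (fun v hv h1 h2 h3 h4 => hder e v hv (he _ (hmaps hv) h1 h2 h3 h4))
      (fun v hv h1 h2 h3 h4 => hder h v hv (hh _ (hmaps hv) h1 h2 h3 h4))
      (by simpa using hs') s ⟨hs.1, le_rfl⟩
    simpa using key

end Vale.Agent.P298
end
end

section

section

open Set Metric Filter Topology
open scoped NNReal ContDiff Manifold

namespace Vale.Agent.P298

theorem exists_pos_of_good {Z : Type*} [TopologicalSpace Z] {B S : Set Z} (hS : IsCompact S)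
    (hSB : S ⊆ B) {a : Z → ℝ} (ha : ContinuousOn a S) (ha0 : ∀ p ∈ S, 0 ≤ a p)
    {good : Z → Prop} (h : ∀ p ∈ S, a p = 0 → ∀ᶠ q in 𝓝[B] p, good q) :
    ∃ δ > 0, ∀ p ∈ S, a p ≤ δ → good p := by
  set V : Set Z := {p | ∀ᶠ q in 𝓝 p, q ∈ B → good q} with hV
  have hVo : IsOpen V := isOpen_setOfPred_eventually_nhds
  have hgood : ∀ p ∈ S, p ∈ V → good p := fun p hp hpV => hpV.self_of_nhds (hSB hp)
  have hSV : IsCompact (S \ V) := hS.diff hVo
  rcases (S \ V).eq_empty_or_nonempty with hne | hne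
  · refine ⟨1, one_pos, fun p hp _ => hgood p hp ?_⟩
    by_contra hc
    have : p ∈ S \ V := ⟨hp, hc⟩
    rw [hne] at this
    exact this
  · obtain ⟨m, hm, hmin⟩ := hSV.exists_isMinOn hne (ha.mono sdiff_subset)
    have hpos : 0 < a m := by
      rcases eq_or_lt_of_le (ha0 m hm.1) with h0 | h0
      · exact absurd (eventually_nhdsWithin_iff.1 (h m hm.1 h0.symm)) hm.2
      · exact h0
    refine ⟨a m / 2, by positivity, fun p hp hpa => hgood p hp ?_⟩
    by_contra hc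
    have := hmin (show p ∈ S \ V from ⟨hp, hc⟩)
    have h2 : a m ≤ a p := this
    linarith

theorem contDiff_clm_prod {X W W' : Type*} [NormedAddCommGroup X] [NormedSpace ℂ X]
    [NormedAddCommGroup W] [NormedSpace ℂ W] [NormedAddCommGroup W'] [NormedSpace ℂ W'] :
    ContDiff ℝ 1 (fun q : (X →L[ℂ] W) × (X →L[ℂ] W') => q.1.prod q.2) :=
  (ContinuousLinearMap.prodₗᵢ ℝ : (X →L[ℂ] W) × (X →L[ℂ] W') ≃ₗᵢ[ℝ] _).contDiff

section

variable {X : Type*} [NormedAddCommGroup X] [NormedSpace ℂ X]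

/-- Partial derivative in the space direction. -/
noncomputable def dX (f : X × ℂ → ℂ) (p : X × ℂ) : X →L[ℂ] ℂ :=
  (fderiv ℂ f p).comp (ContinuousLinearMap.inl ℂ X ℂ)

theorem dX_apply (f : X × ℂ → ℂ) (p : X × ℂ) (v : X) : dX f p v = fderiv ℂ f p (v, 0) := rfl

theorem fderiv_split (f : X × ℂ → ℂ) (p : X × ℂ) (v : X) :
    fderiv ℂ f p (v, 1) = dX f p v + fderiv ℂ f p (0, 1) := by
  rw [dX_apply, ← map_add]
  simp

theorem contDiffAt_dX {f : X × ℂ → ℂ} {p : X × ℂ} (hf : AnalyticAt ℂ f p) :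
    ContDiffAt ℝ 1 (dX f) p := by
  have h1 : ContDiffAt ℂ 1 (fderiv ℂ f) p := hf.fderiv.contDiffAt
  have h2 : ContDiff ℂ 1 (fun A : X × ℂ →L[ℂ] ℂ => A.comp (ContinuousLinearMap.inl ℂ X ℂ)) :=
    ((ContinuousLinearMap.compL ℂ X (X × ℂ) ℂ).flip (ContinuousLinearMap.inl ℂ X ℂ)).contDiff
  exact (h2.contDiffAt.comp p h1).restrict_scalars ℝ

theorem contDiffAt_dT {f : X × ℂ → ℂ} {p : X × ℂ} (hf : AnalyticAt ℂ f p) :
    ContDiffAt ℝ 1 (fun q => fderiv ℂ f q (0, 1)) p := by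
  have h1 : ContDiffAt ℂ 1 (fderiv ℂ f) p := hf.fderiv.contDiffAt
  exact (h1.clm_apply contDiffAt_const).restrict_scalars ℝ

theorem hasDerivWithinAt_traj {f : X × ℂ → ℂ} {G : Set (X × ℂ)} {u : X × ℂ → X} {c₀ c₁ : ℝ}
    {t : ℂ} {b : ℝ} {x : ℝ → X} (hx : Traj G u c₀ c₁ t b x)
    (hf : ∀ p ∈ G, AnalyticAt ℂ f p) {s : ℝ} (hs : s ∈ Icc 0 b) :
    HasDerivWithinAt (fun s => f (x s, (c₀ + c₁ * s) • t))
      ((c₁ : ℂ) * t * fderiv ℂ f (x s, (c₀ + c₁ * s) • t)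
        (u (x s, (c₀ + c₁ * s) • t), 1)) (Icc 0 b) s := by
  obtain ⟨h1, h2⟩ := hx s hs
  have h3 : HasDerivWithinAt (fun s : ℝ => (c₀ + c₁ * s) • t) (c₁ • t) (Icc 0 b) s := by
    have : HasDerivAt (fun s : ℝ => c₀ + c₁ * s) c₁ s := by
      simpa using ((hasDerivAt_id s).const_mul c₁).const_add c₀
    exact (this.smul_const t).hasDerivWithinAt
  have h4 := h2.prodMk h3
  have h5 : HasFDerivAt f ((fderiv ℂ f (x s, (c₀ + c₁ * s) • t)).restrictScalars ℝ)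
      (x s, (c₀ + c₁ * s) • t) := (hf _ h1).differentiableAt.hasFDerivAt.restrictScalars ℝ
  have h6 := h5.comp_hasDerivWithinAt s h4
  refine h6.congr_deriv ?_
  set p : X × ℂ := (x s, (c₀ + c₁ * s) • t)
  have e1 : ((c₁ • t • u p, c₁ • t) : X × ℂ) = ((c₁ : ℂ) * t) • ((u p, 1) : X × ℂ) := by
    ext
    · simp only [Prod.smul_mk]
      rw [mul_smul, Complex.coe_smul]
    · simp
  rw [e1]
  change (fderiv ℂ f p) (((c₁ : ℂ) * t) • ((u p, 1) : X × ℂ)) = _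
  rw [map_smul, smul_eq_mul]

omit [NormedSpace ℂ X] in
/-- Nonmembership in a union of closed sets shrinking to the axis is stable. -/
theorem eventually_notMem_iUnion {T : ℕ → Set (X × ℂ)} (hT : ∀ k, IsClosed (T k))
    (hsh : ∀ δ > 0, ∃ k₀, ∀ k ≥ k₀, ∀ p ∈ T k, ‖p.1‖ < δ) {p₀ : X × ℂ} (h0 : p₀.1 ≠ 0)
    (hp : ∀ k, p₀ ∉ T k) : ∀ᶠ p in 𝓝 p₀, ∀ k, p ∉ T k := by
  have hpos : 0 < ‖p₀.1‖ := norm_pos_iff.2 h0
  obtain ⟨k₀, hk₀⟩ := hsh (‖p₀.1‖ / 2) (by positivity)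
  have h1 : ∀ᶠ p : X × ℂ in 𝓝 p₀, ‖p₀.1‖ / 2 < ‖p.1‖ :=
    (isOpen_lt continuous_const continuous_fst.norm).mem_nhds (by
      change ‖p₀.1‖ / 2 < ‖p₀.1‖
      linarith)
  have h2 : ∀ᶠ p in 𝓝 p₀, ∀ k ∈ Finset.range k₀, p ∉ T k := by
    rw [Filter.eventually_all_finset]
    intro k _
    exact (hT k).isOpen_compl.mem_nhds (hp k)
  filter_upwards [h1, h2] with p hp1 hp2 k
  rcases lt_or_ge k k₀ with hk | hk
  · exact hp2 k (Finset.mem_range.2 hk)
  · intro hpk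
    exact absurd (hk₀ k hk p hpk) (not_lt.2 hp1.le)

variable [FiniteDimensional ℂ X]

theorem trivial_of_flag {F E H : X × ℂ → ℂ} {r η : ℝ} (hr : 0 < r) (hη : 0 < η)
    (hF : AnalyticOnNhd ℂ F (closedBall 0 r ×ˢ closedBall 0 η))
    (hE : AnalyticOnNhd ℂ E (closedBall 0 r ×ˢ closedBall 0 η))
    (hH : AnalyticOnNhd ℂ H (closedBall 0 r ×ˢ closedBall 0 η))
    (hF0 : ∀ t : ℂ, ‖t‖ ≤ η → F (0, t) = 0) (hE0 : ∀ t : ℂ, ‖t‖ ≤ η → E (0, t) = 0)
    (hH0 : ∀ t : ℂ, ‖t‖ ≤ η → H (0, t) = 0)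
    (P1 : ∀ p : X × ℂ, ‖p.1‖ ≤ r → ‖p.2‖ ≤ η → p.1 ≠ 0 → Function.Surjective (dX F p))
    (P2 : ∀ p : X × ℂ, ‖p.1‖ ≤ r → ‖p.2‖ ≤ η → p.1 ≠ 0 → F p = 0 →
      Function.Surjective ((dX F p).prod (dX E p)))
    (P3 : ∀ p : X × ℂ, ‖p.1‖ ≤ r → ‖p.2‖ ≤ η → p.1 ≠ 0 → F p = 0 → E p = 0 →
      Function.Surjective ((dX F p).prod ((dX E p).prod (dX H p))))
    (P4 : ∀ p : X × ℂ, ‖p.1‖ ≤ r → ‖p.2‖ ≤ η → F p = 0 → E p = 0 → H p = 0 → p.1 = 0) :
    ∃ e : OpenPartialHomeomorph (X × ℂ) (X × ℂ),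
      (∀ p ∈ e.source, ‖p.2‖ < η / 2) ∧ (∀ t : ℂ, ‖t‖ < η / 2 → (0, t) ∈ e.source) ∧
      (∀ p, (e p).2 = p.2) ∧ (∀ t, e (0, t) = (0, t)) ∧
      (∀ p ∈ e.source, F (e p) = F (p.1, 0)) := by
  have : ProperSpace X := FiniteDimensional.proper ℂ X
  have : FiniteDimensional ℝ X := FiniteDimensional.complexToReal X
  set B : Set (X × ℂ) := closedBall 0 r ×ˢ closedBall 0 η with hB
  have hBc : IsCompact B := (isCompact_closedBall _ _).prod (isCompact_closedBall _ _)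
  have hBmem : ∀ p : X × ℂ, p ∈ B ↔ ‖p.1‖ ≤ r ∧ ‖p.2‖ ≤ η := by
    intro p
    simp [hB, mem_prod]
  have hFc : ContinuousOn F B := hF.continuousOn
  have hEc : ContinuousOn E B := hE.continuousOn
  have hHc : ContinuousOn H B := hH.continuousOn
  have hdc : ∀ {f : X × ℂ → ℂ}, AnalyticOnNhd ℂ f B → ∀ p ∈ B, ContinuousWithinAt (dX f) B p :=
    fun hf p hp => (contDiffAt_dX (hf p hp)).continuousAt.continuousWithinAt
  -- constants
  have hsmall : ∀ δ > 0, ∃ κ > 0, ∀ p ∈ B, ‖F p‖ ≤ κ → ‖E p‖ ≤ κ → ‖H p‖ ≤ κ → ‖p.1‖ < δ := by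
    intro δ hδ
    set S : Set (X × ℂ) := B ∩ {p | δ ≤ ‖p.1‖}
    have hS : IsCompact S := hBc.inter_right (isClosed_le continuous_const continuous_fst.norm)
    obtain ⟨κ, hκ, hκ'⟩ := exists_pos_of_good (B := B) hS inter_subset_left
      (a := fun p => max ‖F p‖ (max ‖E p‖ ‖H p‖))
      ((hFc.norm.sup (hEc.norm.sup hHc.norm)).mono inter_subset_left)
      (fun p _ => le_max_of_le_left (norm_nonneg _)) (good := fun _ => False) (by
        intro p hp h0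
        exfalso
        have h1 : ‖F p‖ ≤ 0 := (le_max_left _ _).trans h0.le
        have h2 : ‖E p‖ ≤ 0 := ((le_max_left _ _).trans (le_max_right _ _)).trans h0.le
        have h3 : ‖H p‖ ≤ 0 := ((le_max_right _ _).trans (le_max_right _ _)).trans h0.le
        have hb := (hBmem p).1 hp.1
        have := P4 p hb.1 hb.2 (norm_le_zero_iff.1 h1) (norm_le_zero_iff.1 h2)
          (norm_le_zero_iff.1 h3)
        have h4 : δ ≤ ‖p.1‖ := hp.2
        rw [this, norm_zero] at h4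
        linarith)
    refine ⟨κ, hκ, fun p hp h1 h2 h3 => ?_⟩
    by_contra hc
    exact hκ' p ⟨hp, not_lt.1 hc⟩ (max_le h1 (max_le h2 h3))
  have hpick : ∀ ε > 0, ∀ κ > 0, ∃ α β : ℝ, 0 < α ∧ α ≤ β ∧ β ≤ ε ∧ β ≤ κ ∧
      (∀ p ∈ B, ‖F p‖ ≤ β → ‖E p‖ ≤ β → ε / 2 ≤ ‖H p‖ → ‖H p‖ ≤ ε →
        Function.Surjective ((dX F p).prod ((dX E p).prod (dX H p)))) ∧
      (∀ p ∈ B, ‖F p‖ ≤ α → β / 2 ≤ ‖E p‖ → ‖E p‖ ≤ β → ‖H p‖ ≤ ε →
        Function.Surjective ((dX F p).prod (dX E p))) := by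
    intro ε hε κ hκ
    -- `β`
    have hcl2 : IsCompact (B ∩ {p | ε / 2 ≤ ‖H p‖ ∧ ‖H p‖ ≤ ε}) := by
      refine hBc.of_isClosed_subset ?_ inter_subset_left
      exact hHc.norm.preimage_isClosed_of_isClosed hBc.isClosed isClosed_Icc
    obtain ⟨β', hβ', hβ''⟩ := exists_pos_of_good (B := B) hcl2 inter_subset_left
      (a := fun p => max ‖F p‖ ‖E p‖)
      ((hFc.norm.sup hEc.norm).mono inter_subset_left)
      (fun p _ => le_max_of_le_left (norm_nonneg _))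
      (good := fun p => Function.Surjective ((dX F p).prod ((dX E p).prod (dX H p)))) (by
        intro p hp h0
        have h1 : ‖F p‖ ≤ 0 := (le_max_left _ _).trans h0.le
        have h2 : ‖E p‖ ≤ 0 := (le_max_right _ _).trans h0.le
        have hb := (hBmem p).1 hp.1
        have hne : p.1 ≠ 0 := by
          intro hz
          have : p = (0, p.2) := by rw [← hz]
          have h4 : ε / 2 ≤ ‖H p‖ := hp.2.1
          rw [this, hH0 _ hb.2, norm_zero] at h4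
          linarith
        refine eventually_surjective (L := fun p => (dX F p).prod ((dX E p).prod (dX H p))) ?_
          (P3 p hb.1 hb.2 hne (norm_le_zero_iff.1 h1) (norm_le_zero_iff.1 h2))
        exact ((hdc hF p hp.1).prodMk ((hdc hE p hp.1).prodMk (hdc hH p hp.1))) |>.tendsto |>
          fun h => by
            have hc : Continuous (fun q : (X →L[ℂ] ℂ) × ((X →L[ℂ] ℂ) × (X →L[ℂ] ℂ)) =>
              q.1.prod (q.2.1.prod q.2.2)) :=
              (contDiff_clm_prod (W := ℂ) (W' := ℂ × ℂ)).continuous.comp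
                (continuous_fst.prodMk ((contDiff_clm_prod (W := ℂ) (W' := ℂ)).continuous.comp
                  continuous_snd))
            exact (hc.tendsto _).comp h)
    set β : ℝ := min β' (min ε κ) with hβdef
    have hβ : 0 < β := lt_min hβ' (lt_min hε hκ)
    have hcl1 : IsCompact (B ∩ {p | (β / 2 ≤ ‖E p‖ ∧ ‖E p‖ ≤ β) ∧ ‖H p‖ ≤ ε}) := by
      refine hBc.of_isClosed_subset ?_ inter_subset_left
      have h1 : IsClosed (B ∩ {p | β / 2 ≤ ‖E p‖ ∧ ‖E p‖ ≤ β}) :=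
        hEc.norm.preimage_isClosed_of_isClosed hBc.isClosed isClosed_Icc
      have h2 : IsClosed (B ∩ {p | ‖H p‖ ≤ ε}) :=
        hHc.norm.preimage_isClosed_of_isClosed hBc.isClosed isClosed_Iic
      have h3 := h1.inter h2
      convert h3 using 1
      ext p
      simp only [mem_inter_iff, mem_ofPred_eq]
      tauto
    obtain ⟨α', hα', hα''⟩ := exists_pos_of_good (B := B) hcl1 inter_subset_left
      (a := fun p => ‖F p‖) (hFc.norm.mono inter_subset_left)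
      (fun p _ => norm_nonneg _)
      (good := fun p => Function.Surjective ((dX F p).prod (dX E p))) (by
        intro p hp h0
        have hb := (hBmem p).1 hp.1
        have hne : p.1 ≠ 0 := by
          intro hz
          have : p = (0, p.2) := by rw [← hz]
          have h4 : β / 2 ≤ ‖E p‖ := hp.2.1.1
          rw [this, hE0 _ hb.2, norm_zero] at h4
          linarith
        refine eventually_surjective (L := fun p => (dX F p).prod (dX E p)) ?_
          (P2 p hb.1 hb.2 hne (norm_eq_zero.1 h0))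
        exact ((hdc hF p hp.1).prodMk (hdc hE p hp.1)) |>.tendsto |>
          fun h => by
            have hc : Continuous (fun q : (X →L[ℂ] ℂ) × (X →L[ℂ] ℂ) => q.1.prod q.2) :=
              contDiff_clm_prod.continuous
            exact (hc.tendsto _).comp h)
    refine ⟨min α' β, β, lt_min hα' hβ, min_le_right _ _,
      (min_le_right _ _).trans (min_le_left _ _), (min_le_right _ _).trans (min_le_right _ _),
      ?_, ?_⟩
    · intro p hp h1 h2 h3 h4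
      exact hβ'' p ⟨hp, h3, h4⟩ (max_le (h1.trans (min_le_left _ _)) (h2.trans (min_le_left _ _)))
    · intro p hp h1 h2 h3 h4
      exact hα'' p ⟨hp, ⟨h2, h3⟩, h4⟩ (h1.trans (min_le_left _ _))
  -- initial constants
  obtain ⟨κ₀, hκ₀, hκ₀'⟩ := hsmall (r / 2) (by positivity)
  obtain ⟨α₀, β₀, hα₀, hαβ₀, hβε₀, -, hS2₀, hS1₀⟩ := hpick κ₀ hκ₀ κ₀ hκ₀
  have hεk : ∀ k : ℕ, 0 < κ₀ / (k + 1) := fun k => by positivity
  choose α β hα hαβ hβε hβα hS2 hS1 using fun k : ℕ => hpick (κ₀ / (k + 1)) (hεk k) α₀ hα₀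
  set par : ℕ → ℝ × ℝ × ℝ := fun k =>
    Nat.casesOn k (α₀, β₀, κ₀) (fun j => (α j, β j, κ₀ / (j + 1))) with hpar
  have par0 : par 0 = (α₀, β₀, κ₀) := rfl
  have parS : ∀ j, par (j + 1) = (α j, β j, κ₀ / (j + 1)) := fun j => rfl
  have hp1 : ∀ k, 0 < (par k).1 := by
    intro k; cases k with
    | zero => exact hα₀
    | succ j => exact hα j
  have hp2 : ∀ k, (par k).1 ≤ (par k).2.1 := by
    intro k; cases k with
    | zero => exact hαβ₀
    | succ j => exact hαβ j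
  have hp3 : ∀ k, (par k).2.1 ≤ (par k).2.2 := by
    intro k; cases k with
    | zero => exact hβε₀
    | succ j => exact hβε j
  have hp4 : ∀ k, 0 < (par k).2.1 := fun k => (hp1 k).trans_le (hp2 k)
  have hp5 : ∀ k, 0 < (par k).2.2 := fun k => (hp4 k).trans_le (hp3 k)
  have hp6 : ∀ k, (par k).1 ≤ α₀ ∧ (par k).2.1 ≤ β₀ ∧ (par k).2.2 ≤ κ₀ := by
    intro k; cases k with
    | zero => exact ⟨le_rfl, le_rfl, le_rfl⟩
    | succ j =>
      refine ⟨(hαβ j).trans (hβα j), (hβα j).trans hαβ₀, ?_⟩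
      change κ₀ / (j + 1) ≤ κ₀
      exact div_le_self hκ₀.le (by simp)
  have hS2' : ∀ k, ∀ p ∈ B, ‖F p‖ ≤ (par k).2.1 → ‖E p‖ ≤ (par k).2.1 →
      (par k).2.2 / 2 ≤ ‖H p‖ → ‖H p‖ ≤ (par k).2.2 →
      Function.Surjective ((dX F p).prod ((dX E p).prod (dX H p))) := by
    intro k; cases k with
    | zero => exact hS2₀
    | succ j => exact hS2 j
  have hS1' : ∀ k, ∀ p ∈ B, ‖F p‖ ≤ (par k).1 → (par k).2.1 / 2 ≤ ‖E p‖ →
      ‖E p‖ ≤ (par k).2.1 → ‖H p‖ ≤ (par k).2.2 →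
      Function.Surjective ((dX F p).prod (dX E p)) := by
    intro k; cases k with
    | zero => exact hS1₀
    | succ j => exact hS1 j
  have hpsh : ∀ δ > 0, ∃ k₀, ∀ k ≥ k₀, (par k).2.2 ≤ δ := by
    intro δ hδ
    obtain ⟨n, hn⟩ := exists_nat_gt (κ₀ / δ)
    refine ⟨n + 1, fun k hk => ?_⟩
    cases k with
    | zero => omega
    | succ j =>
      change κ₀ / (j + 1) ≤ δ
      rw [div_le_iff₀ (by positivity)]
      have h1 : (n : ℝ) ≤ j := by
        have : n ≤ j := by omega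
        exact_mod_cast this
      have h2 : κ₀ < n * δ := (div_lt_iff₀ hδ).1 hn
      nlinarith
  -- the barrier shells
  set T2 : ℕ → Set (X × ℂ) := fun k => {p ∈ B | ‖F p‖ ≤ (par k).2.1 ∧ ‖E p‖ ≤ (par k).2.1 ∧
    (par k).2.2 / 2 ≤ ‖H p‖ ∧ ‖H p‖ ≤ (par k).2.2} with hT2
  set T1 : ℕ → Set (X × ℂ) := fun k => {p ∈ B | ‖F p‖ ≤ (par k).1 ∧ (par k).2.1 / 2 ≤ ‖E p‖ ∧
    ‖E p‖ ≤ (par k).2.1 ∧ ‖H p‖ ≤ (par k).2.2} with hT1
  have cl : ∀ {f : X × ℂ → ℂ}, ContinuousOn f B → ∀ s : Set ℝ, IsClosed s →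
      IsClosed (B ∩ {p | ‖f p‖ ∈ s}) := fun hf s hs =>
    hf.norm.preimage_isClosed_of_isClosed hBc.isClosed hs
  have hT2c : ∀ k, IsClosed (T2 k) := by
    intro k
    have h1 := cl hFc _ (isClosed_Iic (a := (par k).2.1))
    have h2 := cl hEc _ (isClosed_Iic (a := (par k).2.1))
    have h3 := cl hHc _ (isClosed_Icc (a := (par k).2.2 / 2) (b := (par k).2.2))
    convert h1.inter (h2.inter h3) using 1
    ext p
    simp only [hT2, mem_inter_iff, mem_ofPred_eq, mem_Iic, mem_Icc]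
    tauto
  have hT1c : ∀ k, IsClosed (T1 k) := by
    intro k
    have h1 := cl hFc _ (isClosed_Iic (a := (par k).1))
    have h2 := cl hEc _ (isClosed_Icc (a := (par k).2.1 / 2) (b := (par k).2.1))
    have h3 := cl hHc _ (isClosed_Iic (a := (par k).2.2))
    convert h1.inter (h2.inter h3) using 1
    ext p
    simp only [hT1, mem_inter_iff, mem_ofPred_eq, mem_Iic, mem_Icc]
    tauto
  have hT2sh : ∀ δ > 0, ∃ k₀, ∀ k ≥ k₀, ∀ p ∈ T2 k, ‖p.1‖ < δ := by
    intro δ hδ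
    obtain ⟨κ, hκ, hκ'⟩ := hsmall δ hδ
    obtain ⟨k₀, hk₀⟩ := hpsh κ hκ
    refine ⟨k₀, fun k hk p hp => ?_⟩
    obtain ⟨h1, h2, h3, -, h4⟩ := hp
    have h5 := hk₀ k hk
    have h6 := hp3 k
    exact hκ' p h1 (by linarith) (by linarith) (by linarith)
  have hT1sh : ∀ δ > 0, ∃ k₀, ∀ k ≥ k₀, ∀ p ∈ T1 k, ‖p.1‖ < δ := by
    intro δ hδ
    obtain ⟨κ, hκ, hκ'⟩ := hsmall δ hδ
    obtain ⟨k₀, hk₀⟩ := hpsh κ hκ
    refine ⟨k₀, fun k hk p hp => ?_⟩
    obtain ⟨h1, h2, -, h3, h4⟩ := hp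
    have h5 := hk₀ k hk
    have h6 := hp3 k
    have h7 := hp2 k
    exact hκ' p h1 (by linarith) (by linarith) (by linarith)
  -- the open region
  set G : Set (X × ℂ) := {p | p.1 ≠ 0 ∧ ‖p.1‖ < r ∧ ‖p.2‖ < η} with hG
  have hGo : IsOpen G := by
    have h1 : IsOpen {p : X × ℂ | p.1 ≠ 0} := isOpen_ne_fun continuous_fst continuous_const
    have h2 : IsOpen {p : X × ℂ | ‖p.1‖ < r} := isOpen_lt continuous_fst.norm continuous_const
    have h3 : IsOpen {p : X × ℂ | ‖p.2‖ < η} := isOpen_lt continuous_snd.norm continuous_const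
    exact h1.inter (h2.inter h3)
  have hGB : ∀ p ∈ G, p ∈ B := fun p hp => (hBmem p).2 ⟨hp.2.1.le, hp.2.2.le⟩
  -- the vector field
  set K : X × ℂ → Set X := fun p => {v | fderiv ℂ F p (v, 1) = 0 ∧
    ((∃ k, p ∈ T1 k ∪ T2 k) → fderiv ℂ E p (v, 1) = 0) ∧
    ((∃ k, p ∈ T2 k) → fderiv ℂ H p (v, 1) = 0)} with hK
  have hconv : ∀ (f : X × ℂ → ℂ) (p : X × ℂ) (v w : X) (a b : ℝ), a + b = 1 →
      fderiv ℂ f p (v, 1) = 0 → fderiv ℂ f p (w, 1) = 0 →
      fderiv ℂ f p (a • v + b • w, 1) = 0 := by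
    intro f p v w a b hab hv hw
    have e1 : ((a • v + b • w, 1) : X × ℂ) = (a : ℂ) • ((v, 1) : X × ℂ) + (b : ℂ) • ((w, 1) : X × ℂ) := by
      ext
      · simp [Complex.coe_smul]
      · simp only [Prod.snd_add, Prod.smul_snd, smul_eq_mul, mul_one]
        rw [← Complex.ofReal_add, hab, Complex.ofReal_one]
    rw [e1, map_add, map_smul, map_smul, hv, hw]
    simp
  obtain ⟨u, huc, huK⟩ := exists_selection hGo K (by
    intro p _ v hv w hw a b _ _ hab
    exact ⟨hconv F p v w a b hab hv.1 hw.1,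
      fun hk => hconv E p v w a b hab (hv.2.1 hk) (hw.2.1 hk),
      fun hk => hconv H p v w a b hab (hv.2.2 hk) (hw.2.2 hk)⟩) (by
    intro p₀ hp₀
    have hp₀B := hGB p₀ hp₀
    have hb := (hBmem p₀).1 hp₀B
    have hne := hp₀.1
    by_cases h2 : ∃ k, p₀ ∈ T2 k
    · -- three constraints
      obtain ⟨k, hk⟩ := h2
      have hsurj := hS2' k p₀ hk.1 hk.2.1 hk.2.2.1 hk.2.2.2.1 hk.2.2.2.2
      obtain ⟨g, hg1, hg2⟩ := exists_local_solution
        (L := fun p => (dX F p).prod ((dX E p).prod (dX H p)))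
        (b := fun p => (-fderiv ℂ F p (0, 1), (-fderiv ℂ E p (0, 1), -fderiv ℂ H p (0, 1))))
        (p₀ := p₀)
        (by
          have h1 : ContDiffAt ℝ 1 (fun p => (dX E p).prod (dX H p)) p₀ :=
            (contDiff_clm_prod (W := ℂ) (W' := ℂ)).contDiffAt.comp p₀
              ((contDiffAt_dX (hE p₀ hp₀B)).prodMk (contDiffAt_dX (hH p₀ hp₀B)))
          exact (contDiff_clm_prod (W := ℂ) (W' := ℂ × ℂ)).contDiffAt.comp p₀
            ((contDiffAt_dX (hF p₀ hp₀B)).prodMk h1))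
        ((contDiffAt_dT (hF p₀ hp₀B)).neg.prodMk ((contDiffAt_dT (hE p₀ hp₀B)).neg.prodMk
          (contDiffAt_dT (hH p₀ hp₀B)).neg)) hsurj
      refine ⟨g, hg1, ?_⟩
      filter_upwards [hg2] with p hp
      rw [Prod.ext_iff, Prod.ext_iff] at hp
      obtain ⟨h1, h2, h3⟩ := hp
      refine ⟨?_, fun _ => ?_, fun _ => ?_⟩
      · rw [fderiv_split]
        have : dX F p (g p) = -fderiv ℂ F p (0, 1) := h1
        rw [this]; ring
      · rw [fderiv_split]
        have : dX E p (g p) = -fderiv ℂ E p (0, 1) := h2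
        rw [this]; ring
      · rw [fderiv_split]
        have : dX H p (g p) = -fderiv ℂ H p (0, 1) := h3
        rw [this]; ring
    · have h2' : ∀ᶠ p in 𝓝 p₀, ∀ k, p ∉ T2 k :=
        eventually_notMem_iUnion hT2c hT2sh hne (fun k hk => h2 ⟨k, hk⟩)
      by_cases h1 : ∃ k, p₀ ∈ T1 k
      · obtain ⟨k, hk⟩ := h1
        have hsurj := hS1' k p₀ hk.1 hk.2.1 hk.2.2.1 hk.2.2.2.1 hk.2.2.2.2
        obtain ⟨g, hg1, hg2⟩ := exists_local_solution
          (L := fun p => (dX F p).prod (dX E p))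
          (b := fun p => (-fderiv ℂ F p (0, 1), -fderiv ℂ E p (0, 1)))
          (p₀ := p₀)
          ((contDiff_clm_prod (W := ℂ) (W' := ℂ)).contDiffAt.comp p₀
            ((contDiffAt_dX (hF p₀ hp₀B)).prodMk (contDiffAt_dX (hE p₀ hp₀B))))
          ((contDiffAt_dT (hF p₀ hp₀B)).neg.prodMk (contDiffAt_dT (hE p₀ hp₀B)).neg) hsurj
        refine ⟨g, hg1, ?_⟩
        filter_upwards [hg2, h2'] with p hp hp2
        rw [Prod.ext_iff] at hp
        obtain ⟨h1, h2⟩ := hp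
        refine ⟨?_, fun _ => ?_, fun ⟨j, hj⟩ => absurd hj (hp2 j)⟩
        · rw [fderiv_split]
          have : dX F p (g p) = -fderiv ℂ F p (0, 1) := h1
          rw [this]; ring
        · rw [fderiv_split]
          have : dX E p (g p) = -fderiv ℂ E p (0, 1) := h2
          rw [this]; ring
      · have h1' : ∀ᶠ p in 𝓝 p₀, ∀ k, p ∉ T1 k :=
          eventually_notMem_iUnion hT1c hT1sh hne (fun k hk => h1 ⟨k, hk⟩)
        obtain ⟨g, hg1, hg2⟩ := exists_local_solution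
          (L := fun p => dX F p) (b := fun p => -fderiv ℂ F p (0, 1)) (p₀ := p₀)
          (contDiffAt_dX (hF p₀ hp₀B)) (contDiffAt_dT (hF p₀ hp₀B)).neg (P1 p₀ hb.1 hb.2 hne)
        refine ⟨g, hg1, ?_⟩
        filter_upwards [hg2, h2', h1'] with p hp hp2 hp1
        refine ⟨?_, fun ⟨j, hj⟩ => ?_, fun ⟨j, hj⟩ => absurd hj (hp2 j)⟩
        · rw [fderiv_split, hp]; ring
        · rcases hj with hj | hj
          · exact absurd hj (hp1 j)
          · exact absurd hj (hp2 j))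
  -- the invariant neighbourhoods
  set Q : ℕ → Set (X × ℂ) := fun k => {p | (‖p.1‖ < r ∧ ‖p.2‖ < η) ∧
    ‖F p‖ < (par k).1 ∧ ‖E p‖ < (par k).2.1 ∧ ‖H p‖ < (par k).2.2} with hQ
  set U : Set (X × ℂ) := {p | ‖p.1‖ < r ∧ ‖p.2‖ < η} with hU
  have hUo : IsOpen U :=
    (isOpen_lt continuous_fst.norm continuous_const).inter
      (isOpen_lt continuous_snd.norm continuous_const)
  have hUB : U ⊆ B := fun p hp => (hBmem p).2 ⟨hp.1.le, hp.2.le⟩
  have op : ∀ {f : X × ℂ → ℂ}, ContinuousOn f B → ∀ c : ℝ, IsOpen (U ∩ {p | ‖f p‖ < c}) :=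
    fun hf c => (hf.norm.mono hUB).isOpen_inter_preimage hUo isOpen_Iio
  have hQo : ∀ k, IsOpen (Q k) := by
    intro k
    have h1 := op hFc (par k).1
    have h2 := op hEc (par k).2.1
    have h3 := op hHc (par k).2.2
    convert h1.inter (h2.inter h3) using 1
    ext p
    simp only [hQ, hU, mem_inter_iff, mem_ofPred_eq]
    tauto
  have hη2 : η / 2 < η := by linarith
  have hGan : ∀ {f : X × ℂ → ℂ}, AnalyticOnNhd ℂ f B → ∀ p ∈ G, AnalyticAt ℂ f p :=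
    fun hf p hp => hf p (hGB p hp)
  -- derivative facts along trajectories
  have hconstF : ∀ (c₀ c₁ : ℝ) (t : ℂ) (b : ℝ) (x : ℝ → X), 0 ≤ b → Traj G u c₀ c₁ t b x →
      ∀ s ∈ Icc 0 b, F (x s, (c₀ + c₁ * s) • t) = F (x 0, (c₀ + c₁ * 0) • t) := by
    intro c₀ c₁ t b x hb hx
    refine eq_of_hasDerivWithinAt_zero (f := fun s => F (x s, (c₀ + c₁ * s) • t)) le_rfl le_rfl ?_
    intro s hs
    have h1 := hasDerivWithinAt_traj hx (hGan hF) hs
    rw [(huK _ (hx s hs).1).1, mul_zero] at h1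
    exact h1
  have bar : ∀ k, ∀ c₀ c₁ : ℝ, (∀ s ∈ Icc (0 : ℝ) 1, c₀ + c₁ * s ∈ Icc (0 : ℝ) 1) →
      ∀ t : ℂ, ‖t‖ ≤ η / 2 → ∀ b ∈ Icc (0 : ℝ) 1, ∀ x, Traj G u c₀ c₁ t b x →
      ∀ s ∈ Icc 0 b, ((x 0, c₀ • t) ∈ Q k ↔ (x s, (c₀ + c₁ * s) • t) ∈ Q k) := by
    intro k c₀ c₁ hc t ht b hb x hx s hs
    have hE' : ∀ s ∈ Icc 0 b, HasDerivWithinAt (fun s => E (x s, (c₀ + c₁ * s) • t))
        ((c₁ : ℂ) * t * fderiv ℂ E (x s, (c₀ + c₁ * s) • t)
        (u (x s, (c₀ + c₁ * s) • t), 1)) (Icc 0 b) s :=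
      fun s hs => hasDerivWithinAt_traj hx (hGan hE) hs
    have hH' : ∀ s ∈ Icc 0 b, HasDerivWithinAt (fun s => H (x s, (c₀ + c₁ * s) • t))
        ((c₁ : ℂ) * t * fderiv ℂ H (x s, (c₀ + c₁ * s) • t)
        (u (x s, (c₀ + c₁ * s) • t), 1)) (Icc 0 b) s :=
      fun s hs => hasDerivWithinAt_traj hx (hGan hH) hs
    have key := barrier_iff (b := b) (α := (par k).1) (β := (par k).2.1) (ε := (par k).2.2)
      (a := fun s => F (x s, (c₀ + c₁ * s) • t)) (e := fun s => E (x s, (c₀ + c₁ * s) • t))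
      (h := fun s => H (x s, (c₀ + c₁ * s) • t)) (hp2 k) (hp4 k) (hp5 k)
      (hconstF c₀ c₁ t b x hb.1 hx)
      (HasDerivWithinAt.continuousOn hE') (HasDerivWithinAt.continuousOn hH')
      (by
        intro s hs h1 h2 h3 h4
        have h5 := hE' s hs
        have hmem := (hx s hs).1
        have hT : (x s, (c₀ + c₁ * s) • t) ∈ T1 k := ⟨hGB _ hmem, h1, h2, h3, h4⟩
        rw [(huK _ hmem).2.1 ⟨k, Or.inl hT⟩, mul_zero] at h5
        exact h5)
      (by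
        intro s hs h1 h2 h3 h4
        have h5 := hH' s hs
        have hmem := (hx s hs).1
        have hT : (x s, (c₀ + c₁ * s) • t) ∈ T2 k := ⟨hGB _ hmem, h1, h2, h3, h4⟩
        rw [(huK _ hmem).2.2 ⟨k, hT⟩, mul_zero] at h5
        exact h5) s hs
    have hm0 := (hx 0 ⟨le_rfl, hb.1⟩).1
    have hms := (hx s hs).1
    have e0 : (c₀ + c₁ * 0) • t = c₀ • t := by rw [mul_zero, add_zero]
    rw [e0] at hm0
    simp only [e0] at key
    constructor
    · intro h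
      exact ⟨hms.2, key.1 h.2⟩
    · intro h
      exact ⟨hm0.2, key.2 h.2⟩
  have hcl : ∀ t : ℂ, ‖t‖ ≤ η / 2 → ‖t‖ ≤ η := fun t ht => ht.trans hη2.le
  obtain ⟨e, he1, he2, he3, he4, he5⟩ := exists_homeo (η' := η / 2) (G := G) hGo
    (fun p hp => hp.1) huc (Q := Q) (C := closedBall 0 (r / 2) ×ˢ closedBall 0 (η / 2)) hQo
    (fun k p hp => ⟨hp.1, hp.2.1.trans_le (hp6 k).1, hp.2.2.1.trans_le (hp6 k).2.1,
      hp.2.2.2.trans_le (hp6 k).2.2⟩)
    (fun k t ht => ⟨⟨by simpa using hr, ht.trans_lt hη2⟩, by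
      rw [hF0 t (hcl t ht), norm_zero]; exact hp1 k, by
      rw [hE0 t (hcl t ht), norm_zero]; exact hp4 k, by
      rw [hH0 t (hcl t ht), norm_zero]; exact hp5 k⟩)
    ((isCompact_closedBall _ _).prod (isCompact_closedBall _ _))
    (by
      intro p hp hp2 hne
      have h1 : ‖p.1‖ ≤ r / 2 := by simpa using hp.1
      exact ⟨hne, by linarith, by linarith⟩)
    (by
      intro p hp hp2
      obtain ⟨h1, h2, h3, h4⟩ := hp
      refine ⟨?_, by simpa using hp2⟩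
      rw [mem_closedBall_zero_iff]
      have hk := hp6 0
      have hk3 := hp3 0
      have hk2 := hp2
      have h5 := hαβ₀
      exact (hκ₀' p (hUB h1) (by linarith [hk.1]) (by linarith [hk.2.1]) (by linarith [hk.2.2])).le)
    (by
      intro δ hδ
      obtain ⟨κ, hκ, hκ'⟩ := hsmall δ hδ
      obtain ⟨k₀, hk₀⟩ := hpsh κ hκ
      refine ⟨k₀, fun p hp _ => ?_⟩
      obtain ⟨h1, h2, h3, h4⟩ := hp
      have h5 := hk₀ k₀ le_rfl
      have h6 := hp3 k₀
      have h7 := hp2 k₀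
      exact hκ' p (hUB h1) (by linarith) (by linarith) (by linarith))
    bar
  refine ⟨e, ?_, ?_, he3, he4, ?_⟩
  · intro p hp
    rw [he1] at hp
    exact hp.1
  · intro t ht
    rw [he1]
    refine ⟨ht, ⟨by simpa using hr, by simpa using hη⟩, ?_, ?_, ?_⟩
    · rw [hF0 0 (by simpa using hη.le), norm_zero]; exact hp1 0
    · rw [hE0 0 (by simpa using hη.le), norm_zero]; exact hp4 0
    · rw [hH0 0 (by simpa using hη.le), norm_zero]; exact hp5 0
  · intro p hp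
    by_cases hne : p.1 = 0
    · have : p = (0, p.2) := by rw [← hne]
      have hp' := hp
      rw [he1] at hp'
      have ht : ‖p.2‖ ≤ η := by linarith [hp'.1]
      rw [this, he4, hF0 _ ht, hF0 0 (by simpa using hη.le)]
    · obtain ⟨x, hx, hx0, hx1⟩ := he5 p hp hne
      have h1 := hconstF 0 1 p.2 1 x zero_le_one hx 1 (by simp)
      have e1 : (e p) = (x 1, p.2) := by
        rw [hx1, ← he3 p]
      rw [e1]
      simpa [hx0] using h1

end

end Vale.Agent.P298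
end
end

section

section

namespace Vale.Agent.P298

open Filter Topology Metric

/-- The algebra of functions `ℂⁿ → ℂ` which are analytic at `0`. -/
def AnFun (n : ℕ) : Subalgebra ℂ ((Fin n → ℂ) → ℂ) where
  carrier := {f | AnalyticAt ℂ f 0}
  mul_mem' := fun hf hg => hf.mul hg
  add_mem' := fun hf hg => hf.add hg
  algebraMap_mem' := fun _ => analyticAt_const

/-- The ideal of `AnFun n` generated by the functions that vanish near `0` and by the functions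
in `S`. The quotient `AnFun n ⧸ locIdeal S` is the quotient of the ring `O` of germs at `0` of
holomorphic functions by the ideal generated by the germs of the functions in `S`. -/
def locIdeal {n : ℕ} (S : Set ((Fin n → ℂ) → ℂ)) : Ideal (AnFun n) :=
  Ideal.span ({f | (f : (Fin n → ℂ) → ℂ) =ᶠ[𝓝 0] 0} ∪ {f | (f : (Fin n → ℂ) → ℂ) ∈ S})

/-- The ideal of the ring of germs `O` generated by the germs of the functions in `S` has finite
colength `d`: `dim_ℂ O / (S) = d < ∞`. -/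
def HasColength {n : ℕ} (S : Set ((Fin n → ℂ) → ℂ)) (d : ℕ) : Prop :=
  Module.Finite ℂ (AnFun n ⧸ locIdeal S) ∧ Module.finrank ℂ (AnFun n ⧸ locIdeal S) = d

end Vale.Agent.P298
end
end

section

section

namespace Vale.Agent.P298

open Filter Topology Metric

section Param

variable {n : ℕ} {Λ : Type*} [NormedAddCommGroup Λ] [NormedSpace ℂ Λ]

/-- parametric Hadamard lemma -/
theorem exists_hadamard (l₀ : Λ) {φ : (Fin n → ℂ) × Λ → ℂ} (hφ : AnalyticAt ℂ φ (0, l₀)) :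
    ∃ ψ : Fin n → ((Fin n → ℂ) × Λ → ℂ), (∀ i, AnalyticAt ℂ (ψ i) (0, l₀)) ∧
      ∀ᶠ p in 𝓝 ((0 : Fin n → ℂ), l₀), φ p = φ (0, p.2) + ∑ i, p.1 i * ψ i p := by
  let π : ((Fin n → ℂ) × Λ) →L[ℂ] ((Fin n → ℂ) × Λ) :=
    (ContinuousLinearMap.inr ℂ (Fin n → ℂ) Λ).comp (ContinuousLinearMap.snd ℂ (Fin n → ℂ) Λ)
  have hπa : ∀ v, π v = (0, v.2) := fun v => rfl
  have hπ : ‖π‖ ≤ 1 := by
    refine ContinuousLinearMap.opNorm_le_bound _ zero_le_one fun v => ?_
    rw [hπa, one_mul, Prod.norm_def, Prod.norm_def]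
    simp
  obtain ⟨Q, hQ, h⟩ := exists_division π hπ hφ
  refine ⟨fun i p => Q p (Pi.single i 1, 0), fun i => ?_, ?_⟩
  · exact (ContinuousLinearMap.apply ℂ ℂ ((Pi.single i 1, 0) : (Fin n → ℂ) × Λ)).analyticAt _
      |>.comp hQ
  · filter_upwards [h] with p hp
    have e1 : ((0 : Fin n → ℂ), l₀) + π (p - (0, l₀)) = (0, p.2) := by
      rw [hπa]; ext <;> simp
    rw [e1] at hp
    have e2 : p - ((0 : Fin n → ℂ), p.2) = ∑ i, p.1 i • ((Pi.single i 1, 0) : (Fin n → ℂ) × Λ) := by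
      rw [Prod.ext_iff]
      constructor
      · rw [Prod.fst_sum]
        funext j
        simp [Finset.sum_apply, Pi.single_apply]
      · rw [Prod.snd_sum]
        simp
    rw [e2, map_sum] at hp
    simp only [map_smul, smul_eq_mul] at hp
    rw [← hp]; ring

/-- coordinate function, as element of `AnFun n` -/
def coordF (n : ℕ) (i : Fin n) : AnFun n :=
  ⟨fun x => x i, (ContinuousLinearMap.proj (R := ℂ) (φ := fun _ : Fin n => ℂ) i).analyticAt 0⟩

/-- functions vanishing near `0` -/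
def nul (n : ℕ) : Ideal (AnFun n) where
  carrier := {f | (f : (Fin n → ℂ) → ℂ) =ᶠ[𝓝 0] 0}
  add_mem' := by
    intro a b ha hb
    have : ((a + b : AnFun n) : (Fin n → ℂ) → ℂ) = fun x => (a : (Fin n → ℂ) → ℂ) x +
      (b : (Fin n → ℂ) → ℂ) x := rfl
    change _ =ᶠ[𝓝 0] _
    rw [this]
    filter_upwards [ha, hb] with x hx hy
    rw [hx, hy]; simp
  zero_mem' := by
    change _ =ᶠ[𝓝 0] _
    exact Filter.EventuallyEq.rfl
  smul_mem' := by
    intro c a ha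
    have : ((c • a : AnFun n) : (Fin n → ℂ) → ℂ) = fun x => (c : (Fin n → ℂ) → ℂ) x *
      (a : (Fin n → ℂ) → ℂ) x := rfl
    change _ =ᶠ[𝓝 0] _
    rw [this]
    filter_upwards [ha] with x hx
    rw [hx]; simp

lemma mem_nul {f : AnFun n} : f ∈ nul n ↔ (f : (Fin n → ℂ) → ℂ) =ᶠ[𝓝 0] 0 := Iff.rfl

/-- the ideal generated by the coordinate functions -/
def mX (n : ℕ) : Ideal (AnFun n) := Ideal.span (Set.range (coordF n))

/-- the ideal `(x)^M`, modulo functions vanishing near `0` -/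
def qM (n M : ℕ) : Ideal (AnFun n) := nul n ⊔ mX n ^ M

/-- The slice function `x ↦ ρ (x, l)` represents an element of an ideal. -/
def SliceMem (I : Ideal (AnFun n)) (g : (Fin n → ℂ) → ℂ) : Prop :=
  ∃ h : AnalyticAt ℂ g 0, (⟨g, h⟩ : AnFun n) ∈ I

theorem exists_taylor (n M : ℕ) (Λ : Type*) [NormedAddCommGroup Λ] [NormedSpace ℂ Λ] :
    ∃ (ι : Type) (_ : Fintype ι) (b : ι → AnFun n),
      ∀ (l₀ : Λ) (φ : (Fin n → ℂ) × Λ → ℂ), AnalyticAt ℂ φ (0, l₀) →
        ∃ (a : ι → Λ → ℂ) (ρ : (Fin n → ℂ) × Λ → ℂ),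
          (∀ i, AnalyticAt ℂ (a i) l₀) ∧
          (∀ᶠ p in 𝓝 ((0 : Fin n → ℂ), l₀),
            φ p = ∑ i, a i p.2 * (b i : (Fin n → ℂ) → ℂ) p.1 + ρ p) ∧
          (∃ C : ℝ, ∀ᶠ p in 𝓝 ((0 : Fin n → ℂ), l₀), ‖ρ p‖ ≤ C * ‖p.1‖ ^ M) ∧
          (∀ᶠ l in 𝓝 l₀, SliceMem (qM n M) (fun x => ρ (x, l))) := by
  induction M with
  | zero =>
    refine ⟨Empty, inferInstance, fun x => x.elim, fun l₀ φ hφ => ⟨fun x => x.elim, φ, fun x => x.elim, ?_, ?_, ?_⟩⟩
    · exact Eventually.of_forall fun p => by simp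
    · refine ⟨‖φ (0, l₀)‖ + 1, ?_⟩
      have := (hφ.continuousAt.norm).eventually_lt (continuousAt_const (y := ‖φ (0, l₀)‖ + 1))
        (by simp)
      filter_upwards [this] with p hp
      simpa using hp.le
    · have h1 : ∀ᶠ l in 𝓝 l₀, AnalyticAt ℂ φ (0, l) := by
        have := hφ.eventually_analyticAt
        exact (Continuous.tendsto (by fun_prop : Continuous fun l : Λ => ((0 : Fin n → ℂ), l)) l₀)
          this
      filter_upwards [h1] with l hl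
      have h2 : AnalyticAt ℂ (fun x : Fin n → ℂ => φ (x, l)) 0 :=
        hl.comp₂ analyticAt_id analyticAt_const
      refine ⟨h2, ?_⟩
      simp [qM]
  | succ M ih =>
    obtain ⟨ι, hι, b, hb⟩ := ih
    refine ⟨Option (Fin n × ι), inferInstance,
      fun o => o.elim 1 fun q => coordF n q.1 * b q.2, fun l₀ φ hφ => ?_⟩
    obtain ⟨ψ, hψ, hφψ⟩ := exists_hadamard l₀ hφ
    choose a ρ ha hρ hC hmem using fun i => hb l₀ (ψ i) (hψ i)
    choose C hC using hC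
    refine ⟨fun o l => o.elim (φ (0, l)) fun q => a q.1 q.2 l, fun p => ∑ i, p.1 i * ρ i p,
      ?_, ?_, ?_, ?_⟩
    · rintro (_ | ⟨i, j⟩)
      · exact hφ.comp₂ analyticAt_const analyticAt_id
      · exact ha i j
    · filter_upwards [hφψ, eventually_all.mpr hρ] with p hp hp2
      rw [hp, Fintype.sum_option, Fintype.sum_prod_type, add_assoc]
      congr 1
      · change _ = φ (0, p.2) * (1 : ℂ)
        ring
      · rw [← Finset.sum_add_distrib]
        refine Finset.sum_congr rfl fun i _ => ?_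
        rw [hp2 i, mul_add, Finset.mul_sum]
        congr 1
        refine Finset.sum_congr rfl fun j _ => ?_
        change _ = a i j p.2 * (p.1 i * (b j : (Fin n → ℂ) → ℂ) p.1)
        ring
    · refine ⟨∑ i, C i, ?_⟩
      filter_upwards [eventually_all.mpr hC] with p hp
      calc ‖∑ i, p.1 i * ρ i p‖ ≤ ∑ i, ‖p.1 i * ρ i p‖ := norm_sum_le _ _
        _ ≤ ∑ i, C i * ‖p.1‖ ^ (M + 1) := by
            refine Finset.sum_le_sum fun i _ => ?_
            rw [norm_mul, pow_succ]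
            calc ‖p.1 i‖ * ‖ρ i p‖ ≤ ‖p.1‖ * (C i * ‖p.1‖ ^ M) :=
                  mul_le_mul (norm_le_pi_norm _ i) (hp i) (norm_nonneg _) (norm_nonneg _)
              _ = _ := by ring
        _ = _ := by rw [Finset.sum_mul]
    · filter_upwards [eventually_all.mpr hmem] with l hl
      choose h1 h2 using hl
      have h3 : AnalyticAt ℂ (fun x : Fin n → ℂ => ∑ i, x i * ρ i (x, l)) 0 := by
        refine Finset.analyticAt_fun_sum _ fun i _ => ?_
        exact (coordF n i).2.mul (h1 i)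
      refine ⟨h3, ?_⟩
      have h4 : (⟨fun x : Fin n → ℂ => ∑ i, x i * ρ i (x, l), h3⟩ : AnFun n) =
          ∑ i, coordF n i * ⟨fun x => ρ i (x, l), h1 i⟩ := by
        apply Subtype.ext
        funext x
        simp only [AddSubmonoidClass.coe_finsetSum, Finset.sum_apply]
        rfl
      rw [h4]
      refine Ideal.sum_mem _ fun i _ => ?_
      have h5 := h2 i
      rw [qM, Submodule.mem_sup] at h5 ⊢
      obtain ⟨y, hy, z, hz, hyz⟩ := h5
      refine ⟨coordF n i * y, Ideal.mul_mem_left _ _ hy, coordF n i * z, ?_, ?_⟩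
      · rw [pow_succ']
        exact Ideal.mul_mem_mul (Ideal.subset_span ⟨i, rfl⟩) hz
      · rw [← mul_add, hyz]

end Param

end Vale.Agent.P298
end
end

section

section

namespace Vale.Agent.P298

open Filter Topology Metric Module

variable {n : ℕ}

lemma nul_le_locIdeal (S : Set ((Fin n → ℂ) → ℂ)) : nul n ≤ locIdeal S := fun _ hf =>
  Ideal.subset_span (Or.inl hf)

lemma locIdeal_range {J : Type*} (g : J → (Fin n → ℂ) → ℂ) (hg : ∀ j, AnalyticAt ℂ (g j) 0) :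
    locIdeal (Set.range g) =
      nul n ⊔ Ideal.span (Set.range fun j => (⟨g j, hg j⟩ : AnFun n)) := by
  apply le_antisymm
  · refine Ideal.span_le.mpr ?_
    rintro f (hf | ⟨j, hj⟩)
    · exact Ideal.mem_sup_left hf
    · refine Ideal.mem_sup_right (Ideal.subset_span ⟨j, ?_⟩)
      exact Subtype.ext hj
  · refine sup_le (nul_le_locIdeal _) (Ideal.span_le.mpr ?_)
    rintro _ ⟨j, rfl⟩
    exact Ideal.subset_span (Or.inr ⟨j, rfl⟩)

/-- evaluation at `0` -/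
def ev0 (n : ℕ) : AnFun n →ₐ[ℂ] ℂ :=
  (Pi.evalAlgHom ℂ (fun _ : (Fin n → ℂ) => ℂ) 0).comp (AnFun n).val

lemma exists_inv (u : AnFun n) (hu : ev0 n u ≠ 0) : ∃ w : AnFun n, u * w - 1 ∈ nul n := by
  have hu' : (u : (Fin n → ℂ) → ℂ) 0 ≠ 0 := hu
  refine ⟨⟨fun x => ((u : (Fin n → ℂ) → ℂ) x)⁻¹, u.2.inv hu'⟩, ?_⟩
  rw [mem_nul]
  have hc : ContinuousAt (u : (Fin n → ℂ) → ℂ) 0 := AnalyticAt.continuousAt u.2
  filter_upwards [hc.eventually_ne hu'] with x hx
  change (u : (Fin n → ℂ) → ℂ) x * ((u : (Fin n → ℂ) → ℂ) x)⁻¹ - 1 = 0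
  rw [mul_inv_cancel₀ hx, sub_self]

lemma exists_pow_mul_aeval (A : Type*) [CommRing A] [Algebra ℂ A] [Module.Finite ℂ A] (x : A) :
    ∃ (k : ℕ) (q : Polynomial ℂ), k ≤ finrank ℂ A ∧ q.coeff 0 ≠ 0 ∧
      x ^ k * Polynomial.aeval x q = 0 := by
  have hint : IsIntegral ℂ x := Algebra.IsIntegral.isIntegral x
  set P := minpoly ℂ x with hP
  have hP0 : P ≠ 0 := minpoly.ne_zero hint
  obtain ⟨q, hq, hndvd⟩ := P.exists_eq_pow_rootMultiplicity_mul_and_not_dvd hP0 0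
  rw [Polynomial.C_0, sub_zero] at hq hndvd
  refine ⟨P.rootMultiplicity 0, q, ?_, fun h => hndvd (Polynomial.X_dvd_iff.mpr h), ?_⟩
  · have h1 : P.natDegree ≤ finrank ℂ A := minpoly.natDegree_le x
    refine le_trans ?_ h1
    have hq0 : q ≠ 0 := by
      rintro rfl
      exact hP0 (by rw [hq, mul_zero])
    conv_rhs => rw [hq]
    rw [Polynomial.natDegree_mul (pow_ne_zero _ Polynomial.X_ne_zero) hq0,
      Polynomial.natDegree_X_pow]
    exact Nat.le_add_right _ _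
  · have haev : Polynomial.aeval x P = 0 := minpoly.aeval ℂ x
    rw [hq, map_mul, map_pow, Polynomial.aeval_X] at haev
    exact haev

/-- in a local algebra of dimension `N`, the `N`-th power of a coordinate vanishes -/
lemma coord_pow_mem (I : Ideal (AnFun n)) (hI : nul n ≤ I) (hfin : Module.Finite ℂ (AnFun n ⧸ I))
    (f : AnFun n) (hf : ev0 n f = 0) : f ^ finrank ℂ (AnFun n ⧸ I) ∈ I := by
  obtain ⟨k, q, hk, hq0, haev⟩ := exists_pow_mul_aeval (AnFun n ⧸ I) (Ideal.Quotient.mk I f)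
  have hqx : Polynomial.aeval (Ideal.Quotient.mk I f) q =
      Ideal.Quotient.mk I (Polynomial.aeval f q) := by
    have := Polynomial.aeval_algHom_apply (Ideal.Quotient.mkₐ ℂ I) f q
    simpa using this
  have hev : ev0 n (Polynomial.aeval f q) ≠ 0 := by
    rw [← Polynomial.aeval_algHom_apply, hf, Polynomial.aeval_def, Polynomial.eval₂_at_zero]
    simpa using hq0
  obtain ⟨w, hw⟩ := exists_inv _ hev
  have hw2 : Ideal.Quotient.mk I (Polynomial.aeval f q) * Ideal.Quotient.mk I w = 1 := by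
    rw [← map_mul, ← sub_eq_zero, ← map_one (Ideal.Quotient.mk I), ← map_sub]
    exact Ideal.Quotient.eq_zero_iff_mem.mpr (hI hw)
  have hxk : (Ideal.Quotient.mk I f) ^ k = 0 := by
    calc (Ideal.Quotient.mk I f) ^ k
        = ((Ideal.Quotient.mk I f) ^ k * Ideal.Quotient.mk I (Polynomial.aeval f q)) *
            Ideal.Quotient.mk I w := by rw [mul_assoc, hw2, mul_one]
      _ = 0 := by rw [← hqx, haev, zero_mul]
  have hxN : (Ideal.Quotient.mk I f) ^ finrank ℂ (AnFun n ⧸ I) = 0 := pow_eq_zero_of_le hk hxk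
  rw [← map_pow] at hxN
  exact Ideal.Quotient.eq_zero_iff_mem.mp hxN

lemma ev0_coordF (i : Fin n) : ev0 n (coordF n i) = 0 := rfl

lemma exists_mX_pow_le (n N : ℕ) :
    ∃ M₀, mX n ^ M₀ ≤ Ideal.span (Set.range fun i => coordF n i ^ N) := by
  apply Ideal.exists_pow_le_of_le_radical_of_fg
  · refine Ideal.span_le.mpr ?_
    rintro _ ⟨i, rfl⟩
    exact ⟨N, Ideal.subset_span ⟨i, rfl⟩⟩
  · classical
    exact ⟨Finset.univ.image (coordF n), by simp [mX]⟩

lemma qM_le (n N : ℕ) : ∃ M₀ : ℕ, ∀ M, M₀ ≤ M → ∀ S : Set ((Fin n → ℂ) → ℂ), HasColength S N →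
    qM n M ≤ locIdeal S := by
  obtain ⟨M₀, hM₀⟩ := exists_mX_pow_le n N
  refine ⟨M₀, fun M hM S hS => sup_le (nul_le_locIdeal S) ?_⟩
  refine (Ideal.pow_le_pow_right hM).trans (hM₀.trans (Ideal.span_le.mpr ?_))
  rintro _ ⟨i, rfl⟩
  obtain ⟨hfin, hrank⟩ := hS
  have := coord_pow_mem (locIdeal S) (nul_le_locIdeal S) hfin (coordF n i) (ev0_coordF i)
  rwa [hrank] at this

lemma mX_pow_bound (M : ℕ) (h : AnFun n) (hh : h ∈ mX n ^ M) :
    ∃ C : ℝ, ∀ᶠ x in 𝓝 (0 : Fin n → ℂ), ‖(h : (Fin n → ℂ) → ℂ) x‖ ≤ C * ‖x‖ ^ M := by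
  induction M generalizing h with
  | zero =>
    refine ⟨‖(h : (Fin n → ℂ) → ℂ) 0‖ + 1, ?_⟩
    have hc : ContinuousAt (h : (Fin n → ℂ) → ℂ) 0 := AnalyticAt.continuousAt h.2
    have := hc.norm.eventually_lt
      (continuousAt_const (y := ‖(h : (Fin n → ℂ) → ℂ) 0‖ + 1)) (by simp)
    filter_upwards [this] with x hx
    simpa using hx.le
  | succ M ih =>
    rw [pow_succ'] at hh
    refine Submodule.mul_induction_on hh ?_ ?_
    · intro a ha c hc
      obtain ⟨C, hC⟩ := ih c hc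
      have ha' : ∃ C' : ℝ, 0 ≤ C' ∧ ∀ᶠ x in 𝓝 (0 : Fin n → ℂ),
          ‖(a : (Fin n → ℂ) → ℂ) x‖ ≤ C' * ‖x‖ := by
        rw [mX] at ha
        refine Submodule.span_induction (p := fun (a : AnFun n) _ => ∃ C' : ℝ, 0 ≤ C' ∧
          ∀ᶠ x in 𝓝 (0 : Fin n → ℂ), ‖(a : (Fin n → ℂ) → ℂ) x‖ ≤ C' * ‖x‖) ?_ ?_ ?_ ?_ ha
        · rintro _ ⟨i, rfl⟩
          refine ⟨1, zero_le_one, Eventually.of_forall fun x => ?_⟩
          rw [one_mul]
          exact norm_le_pi_norm x i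
        · exact ⟨0, le_rfl, Eventually.of_forall fun x => by simp⟩
        · rintro f g _ _ ⟨C1, h1, hC1⟩ ⟨C2, h2, hC2⟩
          refine ⟨C1 + C2, add_nonneg h1 h2, ?_⟩
          filter_upwards [hC1, hC2] with x hx1 hx2
          change ‖(f : (Fin n → ℂ) → ℂ) x + (g : (Fin n → ℂ) → ℂ) x‖ ≤ _
          refine (norm_add_le _ _).trans ?_
          rw [add_mul]; exact add_le_add hx1 hx2
        · rintro r f _ ⟨C1, h1, hC1⟩
          have hc : ContinuousAt (r : (Fin n → ℂ) → ℂ) 0 := AnalyticAt.continuousAt r.2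
          have := hc.norm.eventually_lt
            (continuousAt_const (y := ‖(r : (Fin n → ℂ) → ℂ) 0‖ + 1)) (by simp)
          refine ⟨(‖(r : (Fin n → ℂ) → ℂ) 0‖ + 1) * C1, by positivity, ?_⟩
          filter_upwards [this, hC1] with x hx1 hx2
          change ‖(r : (Fin n → ℂ) → ℂ) x * (f : (Fin n → ℂ) → ℂ) x‖ ≤ _
          rw [norm_mul, mul_assoc]
          exact mul_le_mul hx1.le hx2 (norm_nonneg _) (by positivity)
      obtain ⟨C', hC'0, hC'⟩ := ha'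
      refine ⟨C' * C, ?_⟩
      filter_upwards [hC, hC'] with x hx1 hx2
      change ‖(a : (Fin n → ℂ) → ℂ) x * (c : (Fin n → ℂ) → ℂ) x‖ ≤ _
      rw [norm_mul]
      calc _ ≤ (C' * ‖x‖) * (C * ‖x‖ ^ M) :=
            mul_le_mul hx2 hx1 (norm_nonneg _) (by positivity)
        _ = _ := by ring
    · rintro f g ⟨C1, hC1⟩ ⟨C2, hC2⟩
      refine ⟨C1 + C2, ?_⟩
      filter_upwards [hC1, hC2] with x hx1 hx2
      change ‖(f : (Fin n → ℂ) → ℂ) x + (g : (Fin n → ℂ) → ℂ) x‖ ≤ _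
      refine (norm_add_le _ _).trans ?_
      rw [add_mul]; exact add_le_add hx1 hx2

lemma qM_bound (M : ℕ) (h : AnFun n) (hh : h ∈ qM n M) :
    ∃ C : ℝ, ∀ᶠ x in 𝓝 (0 : Fin n → ℂ), ‖(h : (Fin n → ℂ) → ℂ) x‖ ≤ C * ‖x‖ ^ M := by
  rw [qM, Submodule.mem_sup] at hh
  obtain ⟨y, hy, z, hz, rfl⟩ := hh
  obtain ⟨C, hC⟩ := mX_pow_bound M z hz
  refine ⟨C, ?_⟩
  filter_upwards [mem_nul.mp hy, hC] with x hx1 hx2
  change ‖(y : (Fin n → ℂ) → ℂ) x + (z : (Fin n → ℂ) → ℂ) x‖ ≤ _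
  rw [hx1]
  simpa using hx2

end Vale.Agent.P298
end
end

section

section

namespace Vale.Agent.P298

open Filter Topology Metric Module

variable {n : ℕ}

/-- linear combination of the basis functions -/
noncomputable def combo {ι : Type} [Fintype ι] (b : ι → AnFun n) : (ι → ℂ) →ₗ[ℂ] AnFun n :=
  Fintype.linearCombination ℂ b

lemma combo_apply {ι : Type} [Fintype ι] (b : ι → AnFun n) (c : ι → ℂ) (x : Fin n → ℂ) :
    (combo b c : (Fin n → ℂ) → ℂ) x = ∑ i, c i * (b i : (Fin n → ℂ) → ℂ) x := by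
  simp only [combo, Fintype.linearCombination_apply, AddSubmonoidClass.coe_finsetSum,
    Finset.sum_apply]
  rfl

/-- data of a Taylor expansion of all analytic functions -/
def IsTaylorBasis (n M : ℕ) (Λ : Type*) [NormedAddCommGroup Λ] [NormedSpace ℂ Λ] {ι : Type}
    [Fintype ι] (b : ι → AnFun n) : Prop :=
  ∀ (l₀ : Λ) (φ : (Fin n → ℂ) × Λ → ℂ), AnalyticAt ℂ φ (0, l₀) →
    ∃ (a : Λ → ι → ℂ),
      (∀ i, AnalyticAt ℂ (fun l => a l i) l₀) ∧
      (∃ C : ℝ, ∀ᶠ p in 𝓝 ((0 : Fin n → ℂ), l₀),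
        ‖φ p - (combo b (a p.2) : (Fin n → ℂ) → ℂ) p.1‖ ≤ C * ‖p.1‖ ^ M) ∧
      (∀ᶠ l in 𝓝 l₀, ∃ h : AnalyticAt ℂ (fun x => φ (x, l)) 0,
        (⟨fun x => φ (x, l), h⟩ : AnFun n) - combo b (a l) ∈ qM n M)

theorem exists_taylorBasis (n M : ℕ) (Λ : Type*) [NormedAddCommGroup Λ] [NormedSpace ℂ Λ] :
    ∃ (ι : Type) (_ : Fintype ι) (b : ι → AnFun n), IsTaylorBasis n M Λ b := by
  obtain ⟨ι, hι, b, hb⟩ := exists_taylor n M Λ
  refine ⟨ι, hι, b, fun l₀ φ hφ => ?_⟩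
  obtain ⟨a, ρ, ha, h1, ⟨C, h2⟩, h3⟩ := hb l₀ φ hφ
  refine ⟨fun l i => a i l, ha, ⟨C, ?_⟩, ?_⟩
  · filter_upwards [h1, h2] with p hp1 hp2
    rw [combo_apply, hp1]
    simpa using hp2
  · have hslice : ∀ᶠ l in 𝓝 l₀, AnalyticAt ℂ (fun x : Fin n → ℂ => φ (x, l)) 0 := by
      have := hφ.eventually_analyticAt
      have h5 := (Continuous.tendsto
        (by fun_prop : Continuous fun l : Λ => ((0 : Fin n → ℂ), l)) l₀) this
      filter_upwards [h5] with l hl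
      have hl' : AnalyticAt ℂ φ ((0 : Fin n → ℂ), l) := hl
      exact hl'.comp₂ analyticAt_id analyticAt_const
    have hev : ∀ᶠ l in 𝓝 l₀, ∀ᶠ x in 𝓝 (0 : Fin n → ℂ),
        φ (x, l) = ∑ i, a i l * (b i : (Fin n → ℂ) → ℂ) x + ρ (x, l) := by
      rw [nhds_prod_eq] at h1
      have h6 := Filter.Eventually.curry (Filter.prod_comm (f := 𝓝 (0 : Fin n → ℂ)) ▸ h1 :
        ∀ᶠ p in Filter.map (fun p : Λ × (Fin n → ℂ) => (p.2, p.1))
          (𝓝 l₀ ×ˢ 𝓝 (0 : Fin n → ℂ)), _)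
      exact h6
    filter_upwards [h3, hslice, hev] with l hl1 hl2 hl3
    obtain ⟨hρ, hl1⟩ := hl1
    refine ⟨hl2, ?_⟩
    have h7 : (⟨fun x => φ (x, l), hl2⟩ : AnFun n) - combo b (fun i => a i l) -
        ⟨fun x => ρ (x, l), hρ⟩ ∈ nul n := by
      rw [mem_nul]
      filter_upwards [hl3] with x hx
      change φ (x, l) - (combo b (fun i => a i l) : (Fin n → ℂ) → ℂ) x - ρ (x, l) = 0
      rw [combo_apply, hx]; ring
    have h8 := (qM n M).add_mem (Ideal.mem_sup_left h7) hl1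
    rwa [sub_add_cancel] at h8

lemma taylor_surj {M : ℕ} {Λ : Type*} [NormedAddCommGroup Λ] [NormedSpace ℂ Λ] (l₀ : Λ) {ι : Type}
    [Fintype ι] {b : ι → AnFun n} (hb : IsTaylorBasis n M Λ b) (h : AnFun n) :
    ∃ c, h - combo b c ∈ qM n M := by
  have hφ : AnalyticAt ℂ (fun p : (Fin n → ℂ) × Λ => (h : (Fin n → ℂ) → ℂ) p.1) (0, l₀) := by
    have h1 : AnalyticAt ℂ (h : (Fin n → ℂ) → ℂ) ((0 : Fin n → ℂ), l₀).1 := h.2
    exact h1.comp analyticAt_fst
  obtain ⟨a, -, -, h3⟩ := hb l₀ _ hφ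
  obtain ⟨_, h5⟩ := h3.self_of_nhds
  exact ⟨a l₀, h5⟩

section Main

variable {Λ : Type*} [NormedAddCommGroup Λ] [NormedSpace ℂ Λ]

/-- the composite map to the quotient by an ideal -/
noncomputable def toQuot {ι : Type} [Fintype ι] (b : ι → AnFun n) (I : Ideal (AnFun n)) :
    (ι → ℂ) →ₗ[ℂ] (AnFun n ⧸ I) :=
  (Ideal.Quotient.mkₐ ℂ I).toLinearMap ∘ₗ combo b

lemma toQuot_ker {ι : Type} [Fintype ι] (b : ι → AnFun n) (I : Ideal (AnFun n)) (c : ι → ℂ) :
    c ∈ (toQuot b I).ker ↔ combo b c ∈ I := by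
  rw [LinearMap.mem_ker]
  change Ideal.Quotient.mk I (combo b c) = 0 ↔ _
  exact Ideal.Quotient.eq_zero_iff_mem

lemma finrank_ker {M N : ℕ} (l₀ : Λ) {ι : Type} [Fintype ι] {b : ι → AnFun n}
    (hb : IsTaylorBasis n M Λ b) (S : Set ((Fin n → ℂ) → ℂ)) (hS : HasColength S N)
    (hq : qM n M ≤ locIdeal S) :
    N + finrank ℂ (toQuot b (locIdeal S)).ker = Fintype.card ι := by
  have hsurj : Function.Surjective (toQuot b (locIdeal S)) := by
    intro y
    obtain ⟨h, rfl⟩ := Ideal.Quotient.mk_surjective y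
    obtain ⟨c, hc⟩ := taylor_surj l₀ hb h
    refine ⟨c, ?_⟩
    change Ideal.Quotient.mk _ (combo b c) = _
    rw [eq_comm, ← sub_eq_zero, ← map_sub]
    exact Ideal.Quotient.eq_zero_iff_mem.mpr (hq hc)
  have h1 := LinearMap.finrank_range_add_finrank_ker (toQuot b (locIdeal S))
  rw [LinearMap.range_eq_top.mpr hsurj, finrank_top, Module.finrank_fintype_fun_eq_card] at h1
  rw [← h1]
  congr 1
  exact hS.2.symm

end Main

end Vale.Agent.P298
end
end

section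

section

namespace Vale.Agent.P298

open Filter Topology Metric Module

variable {n : ℕ} {Λ : Type*} [NormedAddCommGroup Λ] [NormedSpace ℂ Λ]

lemma combo_bound {ι J K : Type} [Fintype ι] [Fintype J] [Fintype K] (b : ι → AnFun n)
    (u : J × ι → (ι → ℂ)) (z : K → (ι → ℂ)) (c : (J × ι) ⊕ K → ℂ) (φv : J → ℂ) (x : Fin n → ℂ)
    (CW B X : ℝ) (Cu : J × ι → ℝ) (Cz : K → ℝ) (v : ι → ℂ)
    (hv : v = ∑ a, c a • Sum.elim u z a) (hc : ∀ a, ‖c a‖ ≤ CW)
    (hb : ∀ β, ‖(b β : (Fin n → ℂ) → ℂ) x‖ ≤ B)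
    (hu : ∀ q, ‖(b q.2 : (Fin n → ℂ) → ℂ) x * φv q.1 -
      (combo b (u q) : (Fin n → ℂ) → ℂ) x‖ ≤ Cu q * X)
    (hz : ∀ k, ‖(combo b (z k) : (Fin n → ℂ) → ℂ) x‖ ≤ Cz k * X)
    (hX : 0 ≤ X) (hCW : 0 ≤ CW) :
    ‖(combo b v : (Fin n → ℂ) → ℂ) x‖ ≤ CW * (B * Fintype.card ι) * ∑ j, ‖φv j‖ +
      CW * (∑ q, |Cu q| + ∑ k, |Cz k|) * X := by
  have e9 : (combo b v : (Fin n → ℂ) → ℂ) x =
      ∑ q, c (Sum.inl q) * (combo b (u q) : (Fin n → ℂ) → ℂ) x +
      ∑ k, c (Sum.inr k) * (combo b (z k) : (Fin n → ℂ) → ℂ) x := by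
    rw [hv, map_sum, Fintype.sum_sum_type]
    simp only [map_smul]
    change (∑ q, c (Sum.inl q) • combo b (u q) + ∑ k, c (Sum.inr k) • combo b (z k) :
      AnFun n).1 x = _
    rw [AddMemClass.coe_add, Pi.add_apply, AddSubmonoidClass.coe_finsetSum,
      AddSubmonoidClass.coe_finsetSum, Finset.sum_apply, Finset.sum_apply]
    rfl
  have e10 : ∀ q : J × ι, ‖c (Sum.inl q) * (combo b (u q) : (Fin n → ℂ) → ℂ) x‖ ≤
      CW * (B * ‖φv q.1‖ + |Cu q| * X) := by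
    intro q
    rw [norm_mul]
    refine mul_le_mul (hc _) ?_ (norm_nonneg _) hCW
    have h10 := hu q
    have h11 : ‖(combo b (u q) : (Fin n → ℂ) → ℂ) x‖ ≤
        ‖(b q.2 : (Fin n → ℂ) → ℂ) x * φv q.1‖ +
        ‖(b q.2 : (Fin n → ℂ) → ℂ) x * φv q.1 - (combo b (u q) : (Fin n → ℂ) → ℂ) x‖ := by
      have := norm_sub_le ((b q.2 : (Fin n → ℂ) → ℂ) x * φv q.1)
        ((b q.2 : (Fin n → ℂ) → ℂ) x * φv q.1 - (combo b (u q) : (Fin n → ℂ) → ℂ) x)
      rwa [sub_sub_cancel] at this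
    refine h11.trans (add_le_add ?_ ?_)
    · rw [norm_mul]
      exact mul_le_mul_of_nonneg_right (hb q.2) (norm_nonneg _)
    · exact h10.trans (mul_le_mul_of_nonneg_right (le_abs_self _) hX)
  have e11 : ∀ k, ‖c (Sum.inr k) * (combo b (z k) : (Fin n → ℂ) → ℂ) x‖ ≤
      CW * (|Cz k| * X) := by
    intro k
    rw [norm_mul]
    refine mul_le_mul (hc _) ?_ (norm_nonneg _) hCW
    exact (hz k).trans (mul_le_mul_of_nonneg_right (le_abs_self _) hX)
  rw [e9]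
  refine (norm_add_le _ _).trans ?_
  have h12 : ‖∑ q, c (Sum.inl q) * (combo b (u q) : (Fin n → ℂ) → ℂ) x‖ ≤
      ∑ q : J × ι, CW * (B * ‖φv q.1‖ + |Cu q| * X) :=
    (norm_sum_le _ _).trans (Finset.sum_le_sum fun q _ => e10 q)
  have h13 : ‖∑ k, c (Sum.inr k) * (combo b (z k) : (Fin n → ℂ) → ℂ) x‖ ≤
      ∑ k, CW * (|Cz k| * X) :=
    (norm_sum_le _ _).trans (Finset.sum_le_sum fun q _ => e11 q)
  refine (add_le_add h12 h13).trans (le_of_eq ?_)
  rw [← Finset.mul_sum, ← Finset.mul_sum, Finset.sum_add_distrib, ← Finset.sum_mul,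
    ← Finset.sum_mul, ← Finset.mul_sum, Fintype.sum_prod_type]
  simp only [Finset.sum_const, Finset.card_univ, nsmul_eq_mul, ← Finset.mul_sum]
  ring

lemma final_ineq (x : Fin n → ℂ) (m : ℕ) (hm : m ≠ 0) (D1 D2 S : ℝ) (hD1 : 0 ≤ D1)
    (hD2 : 0 ≤ D2) (hS0 : 0 ≤ S) (key : ∀ i, ‖x i‖ ^ m ≤ D1 * S + D2 * ‖x‖ ^ (m + 1))
    (hsm : D2 * ‖x‖ ≤ 1 / 2) : ‖x‖ ^ m ≤ 2 * D1 * S := by
  have hfin : ‖x‖ ^ m ≤ D1 * S + D2 * ‖x‖ ^ (m + 1) := by
    by_contra hcon
    push Not at hcon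
    have hx0 : 0 < ‖x‖ := by
      rcases (norm_nonneg x).eq_or_lt with h0 | h0
      · exfalso
        rw [← h0, zero_pow hm] at hcon
        have : 0 ≤ D1 * S + D2 * 0 ^ (m + 1) := by positivity
        linarith
      · exact h0
    have : ‖x‖ < ‖x‖ := by
      rw [pi_norm_lt_iff hx0]
      intro i
      exact lt_of_pow_lt_pow_left₀ m (norm_nonneg _) ((key i).trans_lt hcon)
    exact lt_irrefl _ this
  have h16 : D2 * ‖x‖ ^ (m + 1) = (D2 * ‖x‖) * ‖x‖ ^ m := by ring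
  rw [h16] at hfin
  have h17 : (D2 * ‖x‖) * ‖x‖ ^ m ≤ 1 / 2 * ‖x‖ ^ m := by gcongr
  nlinarith [hfin, h17]

/-- Conservation of number: if the colength of an analytic family of ideals is constant then the
generators have no common zeros near the origin besides the origin, uniformly in the parameter. -/
theorem semicontinuity {J : Type} [Fintype J] (l₀ : Λ) (φ : J → (Fin n → ℂ) × Λ → ℂ)
    (hφ : ∀ j, AnalyticAt ℂ (φ j) (0, l₀)) (N : ℕ)
    (hN : ∀ᶠ l in 𝓝 l₀, HasColength (Set.range fun j => fun x => φ j (x, l)) N) :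
    ∃ (m : ℕ) (C : ℝ), m ≠ 0 ∧ ∀ᶠ p in 𝓝 ((0 : Fin n → ℂ), l₀),
      ‖p.1‖ ^ m ≤ C * ∑ j, ‖φ j p‖ := by
  classical
  obtain ⟨M₀, hM₀⟩ := qM_le n N
  set m := max M₀ N + 1 with hm
  set M := m + 1 with hM
  have hMM : M₀ ≤ M := by omega
  have hmN : N ≤ m := by omega
  obtain ⟨ι, hι, b, hb⟩ := exists_taylorBasis n M Λ
  -- expansions of `b β * φ j`
  have h1 : ∀ q : J × ι, AnalyticAt ℂ
      (fun p : (Fin n → ℂ) × Λ => (b q.2 : (Fin n → ℂ) → ℂ) p.1 * φ q.1 p) (0, l₀) := by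
    intro q
    have h2 : AnalyticAt ℂ (b q.2 : (Fin n → ℂ) → ℂ) ((0 : Fin n → ℂ), l₀).1 := (b q.2).2
    exact (h2.comp analyticAt_fst).mul (hφ q.1)
  choose u hu huC hmem using fun q : J × ι => hb l₀ _ (h1 q)
  choose Cu hCu using huC
  -- expansions of powers of the coordinates
  have h3 : ∀ i : Fin n, AnalyticAt ℂ (fun p : (Fin n → ℂ) × Λ => p.1 i ^ m) (0, l₀) := by
    intro i
    have h2 : AnalyticAt ℂ (coordF n i : (Fin n → ℂ) → ℂ) ((0 : Fin n → ℂ), l₀).1 :=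
      (coordF n i).2
    exact (h2.comp analyticAt_fst).pow m
  choose w hw hwC hwmem using fun i : Fin n => hb l₀ _ (h3 i)
  choose Cw hCw using hwC
  -- the kernel modulo `qM`
  set Z := (toQuot b (qM n M)).ker with hZ
  let z : Fin (finrank ℂ Z) → (ι → ℂ) := fun k => (finBasis ℂ Z k : ι → ℂ)
  have hz : ∀ k, combo b (z k) ∈ qM n M := fun k => (toQuot_ker b _ _).mp (finBasis ℂ Z k).2
  choose Cz hCz using fun k => qM_bound M (combo b (z k)) (hz k)
  let U : Λ → (J × ι) ⊕ Fin (finrank ℂ Z) → (ι → ℂ) := fun l => Sum.elim (fun q => u q l) z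
  have hUc : ∀ a, ContinuousAt (fun l => U l a) l₀ := by
    rintro (q | k)
    · exact continuousAt_pi.mpr fun i => (hu q i).continuousAt
    · exact continuousAt_const
  -- span of `U l` is the kernel
  have hφs : ∀ᶠ l in 𝓝 l₀, ∀ j, AnalyticAt ℂ (fun x : Fin n → ℂ => φ j (x, l)) 0 := by
    refine eventually_all.mpr fun j => ?_
    have h5 := (Continuous.tendsto
      (by fun_prop : Continuous fun l : Λ => ((0 : Fin n → ℂ), l)) l₀) (hφ j).eventually_analyticAt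
    filter_upwards [h5] with l hl
    have hl' : AnalyticAt ℂ (φ j) ((0 : Fin n → ℂ), l) := hl
    exact hl'.comp₂ analyticAt_id analyticAt_const
  have hspan : ∀ᶠ l in 𝓝 l₀, Submodule.span ℂ (Set.range (U l)) =
      (toQuot b (locIdeal (Set.range fun j => fun x => φ j (x, l)))).ker := by
    filter_upwards [hN, hφs, eventually_all.mpr hmem] with l hl1 hl2 hl3
    have hq := hM₀ M hMM _ hl1
    set S := Set.range fun j => fun x => φ j (x, l) with hS
    -- each generator function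
    have hgen : ∀ j, (⟨fun x => φ j (x, l), hl2 j⟩ : AnFun n) ∈ locIdeal S := fun j =>
      Ideal.subset_span (Or.inr ⟨j, rfl⟩)
    have hprod : ∀ q : J × ι, b q.2 * (⟨fun x => φ q.1 (x, l), hl2 q.1⟩ : AnFun n) -
        combo b (u q l) ∈ qM n M := by
      intro q
      obtain ⟨h, h'⟩ := hl3 q
      exact h'
    apply le_antisymm
    · refine Submodule.span_le.mpr ?_
      rintro _ ⟨q | k, rfl⟩
      · change u q l ∈ (toQuot b (locIdeal S)).ker
        rw [toQuot_ker]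
        have h6 := (locIdeal S).sub_mem (Ideal.mul_mem_left _ (b q.2) (hgen q.1)) (hq (hprod q))
        rwa [sub_sub_cancel] at h6
      · change z k ∈ (toQuot b (locIdeal S)).ker
        rw [toQuot_ker]
        exact hq (hz k)
    · intro c hc
      rw [toQuot_ker, hS, locIdeal_range _ hl2, Submodule.mem_sup] at hc
      obtain ⟨y, hy, y', hy', hyy⟩ := hc
      obtain ⟨h, hh⟩ := (Ideal.mem_span_range_iff_exists_fun).mp hy'
      -- approximate the coefficients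
      choose d hd using fun j => taylor_surj l₀ hb (h j)
      set c' : ι → ℂ := ∑ j, ∑ β, d j β • u (j, β) l with hc'
      have hc'1 : combo b c - combo b c' ∈ qM n M := by
        have e1 : combo b c' = ∑ j, ∑ β, d j β • combo b (u (j, β) l) := by
          rw [hc', map_sum]
          refine Finset.sum_congr rfl fun j _ => ?_
          rw [map_sum]
          refine Finset.sum_congr rfl fun β _ => ?_
          rw [map_smul]
        have e2 : ∀ j, combo b (d j) = ∑ β, d j β • b β := fun j => rfl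
        have e3 : ∑ j, combo b (d j) * (⟨fun x => φ j (x, l), hl2 j⟩ : AnFun n) -
            combo b c' ∈ qM n M := by
          rw [e1, ← Finset.sum_sub_distrib]
          refine Ideal.sum_mem _ fun j _ => ?_
          rw [e2, Finset.sum_mul, ← Finset.sum_sub_distrib]
          refine Ideal.sum_mem _ fun β _ => ?_
          rw [smul_mul_assoc, ← smul_sub]
          exact Submodule.smul_of_tower_mem _ _ (hprod (j, β))
        have e4 : ∑ j, h j * (⟨fun x => φ j (x, l), hl2 j⟩ : AnFun n) -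
            ∑ j, combo b (d j) * (⟨fun x => φ j (x, l), hl2 j⟩ : AnFun n) ∈ qM n M := by
          rw [← Finset.sum_sub_distrib]
          refine Ideal.sum_mem _ fun j _ => ?_
          rw [← sub_mul]
          exact Ideal.mul_mem_right _ _ (hd j)
        have e5 := (qM n M).add_mem (Ideal.mem_sup_left hy : y ∈ qM n M)
          ((qM n M).add_mem e4 e3)
        have e6 : y + (∑ j, h j * (⟨fun x => φ j (x, l), hl2 j⟩ : AnFun n) -
            ∑ j, combo b (d j) * (⟨fun x => φ j (x, l), hl2 j⟩ : AnFun n) +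
            (∑ j, combo b (d j) * (⟨fun x => φ j (x, l), hl2 j⟩ : AnFun n) - combo b c')) =
            combo b c - combo b c' := by
          rw [← hyy, ← hh]; ring
        rwa [e6] at e5
      have hc'2 : c - c' ∈ Z := by
        rw [hZ, toQuot_ker, map_sub]; exact hc'1
      have hc'3 : c - c' ∈ Submodule.span ℂ (Set.range (U l)) := by
        have h7 : c - c' = ∑ k, (finBasis ℂ Z).repr ⟨c - c', hc'2⟩ k • z k := by
          have := (finBasis ℂ Z).sum_repr ⟨c - c', hc'2⟩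
          have h8 := congrArg (Subtype.val) this
          rw [AddSubmonoidClass.coe_finsetSum] at h8
          exact h8.symm
        rw [h7]
        exact Submodule.sum_mem _ fun k _ => Submodule.smul_mem _ _
          (Submodule.subset_span ⟨Sum.inr k, rfl⟩)
      have hc'4 : c' ∈ Submodule.span ℂ (Set.range (U l)) := by
        rw [hc']
        exact Submodule.sum_mem _ fun j _ => Submodule.sum_mem _ fun β _ =>
          Submodule.smul_mem _ _ (Submodule.subset_span ⟨Sum.inl (j, β), rfl⟩)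
      have := Submodule.add_mem _ hc'3 hc'4
      rwa [sub_add_cancel] at this
  have hrank : ∀ᶠ l in 𝓝 l₀, finrank ℂ (Submodule.span ℂ (Set.range (U l))) =
      Fintype.card ι - N := by
    filter_upwards [hspan, hN] with l hl1 hl2
    rw [hl1]
    have := finrank_ker l₀ hb _ hl2 (hM₀ M hMM _ hl2)
    omega
  obtain ⟨C, hC0, hC⟩ := bounded_coeffs U hUc _ hrank
  -- bounds for the continuous data
  have hwb : ∀ i, ∀ᶠ l in 𝓝 l₀, ‖w i l‖ ≤ ‖w i l₀‖ + 1 := by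
    intro i
    have hc : ContinuousAt (w i) l₀ := continuousAt_pi.mpr fun j => (hw i j).continuousAt
    have := hc.norm.eventually_lt (continuousAt_const (y := ‖w i l₀‖ + 1)) (by simp)
    filter_upwards [this] with l hl using hl.le
  have hbb : ∀ β, ∀ᶠ x in 𝓝 (0 : Fin n → ℂ), ‖(b β : (Fin n → ℂ) → ℂ) x‖ ≤
      ‖(b β : (Fin n → ℂ) → ℂ) 0‖ + 1 := by
    intro β
    have hc : ContinuousAt (b β : (Fin n → ℂ) → ℂ) 0 := AnalyticAt.continuousAt (b β).2
    have := hc.norm.eventually_lt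
      (continuousAt_const (y := ‖(b β : (Fin n → ℂ) → ℂ) 0‖ + 1)) (by simp)
    filter_upwards [this] with x hx using hx.le
  have hwspan : ∀ᶠ l in 𝓝 l₀, ∀ i, w i l ∈ Submodule.span ℂ (Set.range (U l)) := by
    filter_upwards [hspan, hN, eventually_all.mpr hwmem] with l hl1 hl2 hl3 i
    rw [hl1, toQuot_ker]
    obtain ⟨h, h'⟩ := hl3 i
    set S := Set.range fun j => fun x => φ j (x, l) with hS
    obtain ⟨hfin, hrk⟩ := hl2
    have h4 := coord_pow_mem (locIdeal S) (nul_le_locIdeal S) hfin (coordF n i) (ev0_coordF i)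
    rw [hrk] at h4
    have h5 : coordF n i ^ m ∈ locIdeal S := by
      rw [← Nat.add_sub_cancel' hmN, pow_add]
      exact Ideal.mul_mem_right _ _ h4
    have h6 : (⟨fun x => (x, l).1 i ^ m, h⟩ : AnFun n) = coordF n i ^ m := by
      apply Subtype.ext
      funext x
      rfl
    rw [h6] at h'
    have h7 := (locIdeal S).sub_mem h5 (hM₀ M hMM _ ⟨hfin, hrk⟩ h')
    rwa [sub_sub_cancel] at h7
  set W := ∑ i, (‖w i l₀‖ + 1) with hW
  have hWi : ∀ i, ‖w i l₀‖ + 1 ≤ W := fun i =>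
    Finset.single_le_sum (f := fun i => ‖w i l₀‖ + 1) (fun i _ => by positivity)
      (Finset.mem_univ i)
  have hW0 : 0 ≤ W := Finset.sum_nonneg fun i _ => by positivity
  set B := ∑ β, (‖(b β : (Fin n → ℂ) → ℂ) 0‖ + 1) with hB
  have hBi : ∀ β, ‖(b β : (Fin n → ℂ) → ℂ) 0‖ + 1 ≤ B := fun β =>
    Finset.single_le_sum (f := fun β => ‖(b β : (Fin n → ℂ) → ℂ) 0‖ + 1)
      (fun i _ => by positivity) (Finset.mem_univ β)
  have hB0 : 0 ≤ B := Finset.sum_nonneg fun i _ => by positivity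
  set D1 := C * W * (B * Fintype.card ι) with hD1
  set D2 := C * W * (∑ q, |Cu q| + ∑ k, |Cz k|) + ∑ i, |Cw i| with hD2
  have hD1' : 0 ≤ D1 := by positivity
  have hD2' : 0 ≤ D2 := by positivity
  refine ⟨m, 2 * D1, by omega, ?_⟩
  -- transfer of the eventual statements
  have tl : Tendsto (fun p : (Fin n → ℂ) × Λ => p.2) (𝓝 (0, l₀)) (𝓝 l₀) := by
    have := (continuous_snd (X := Fin n → ℂ) (Y := Λ)).tendsto (0, l₀)
    simpa using this
  have tx : Tendsto (fun p : (Fin n → ℂ) × Λ => p.1) (𝓝 (0, l₀)) (𝓝 0) := by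
    have := (continuous_fst (X := Fin n → ℂ) (Y := Λ)).tendsto (0, l₀)
    simpa using this
  have hsmall : ∀ᶠ x in 𝓝 (0 : Fin n → ℂ), D2 * ‖x‖ ≤ 1 / 2 := by
    have hc : Continuous fun x : Fin n → ℂ => D2 * ‖x‖ := by fun_prop
    have := hc.continuousAt.eventually_lt (continuousAt_const (x := (0 : Fin n → ℂ)) (y := (1 : ℝ) / 2))
      (by simp)
    filter_upwards [this] with x hx using hx.le
  filter_upwards [tl hC, tl (eventually_all.mpr hwb), tx (eventually_all.mpr hbb), tl hwspan,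
    eventually_all.mpr hCu, tx (eventually_all.mpr hCz), eventually_all.mpr hCw, tx hsmall]
    with p e1 e2 e3 e4 e5 e6 e7 e8
  set x := p.1 with hx
  set l := p.2 with hl
  have e1' : ∀ v ∈ Submodule.span ℂ (Set.range (U l)),
      ∃ c : (J × ι) ⊕ Fin (finrank ℂ Z) → ℂ,
        v = ∑ a, c a • U l a ∧ ∀ a, ‖c a‖ ≤ C * ‖v‖ := e1
  have e2' : ∀ i, ‖w i l‖ ≤ ‖w i l₀‖ + 1 := e2
  have e3' : ∀ β, ‖(b β : (Fin n → ℂ) → ℂ) x‖ ≤ ‖(b β : (Fin n → ℂ) → ℂ) 0‖ + 1 := e3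
  have e4' : ∀ i, w i l ∈ Submodule.span ℂ (Set.range (U l)) := e4
  have e6' : ∀ k, ‖(combo b (z k) : (Fin n → ℂ) → ℂ) x‖ ≤ Cz k * ‖x‖ ^ M := e6
  have e8' : D2 * ‖x‖ ≤ 1 / 2 := e8
  have hS0 : 0 ≤ ∑ j, ‖φ j p‖ := Finset.sum_nonneg fun _ _ => norm_nonneg _
  refine final_ineq x m (by omega) D1 D2 _ hD1' hD2' hS0 (fun i => ?_) e8'
  obtain ⟨c, hc1, hc2⟩ := e1' _ (e4' i)
  have hCW : 0 ≤ C * W := mul_nonneg hC0 hW0
  have hcW : ∀ a, ‖c a‖ ≤ C * W := fun a => (hc2 a).trans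
    (mul_le_mul_of_nonneg_left ((e2' i).trans (hWi i)) hC0)
  have e12 := combo_bound b (fun q => u q l) z c (fun j => φ j p) x (C * W) B (‖x‖ ^ M) Cu Cz
    (w i l) hc1 hcW (fun β => (e3' β).trans (hBi β)) e5 e6' (by positivity) hCW
  have e13 : ‖x i ^ m‖ ≤ ‖x i ^ m - (combo b (w i l) : (Fin n → ℂ) → ℂ) x‖ +
      ‖(combo b (w i l) : (Fin n → ℂ) → ℂ) x‖ := by
    have := norm_add_le (x i ^ m - (combo b (w i l) : (Fin n → ℂ) → ℂ) x)
      ((combo b (w i l) : (Fin n → ℂ) → ℂ) x)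
    rwa [sub_add_cancel] at this
  rw [← norm_pow]
  have e14 : Cw i * ‖x‖ ^ M ≤ (∑ i, |Cw i|) * ‖x‖ ^ M := by
    refine mul_le_mul_of_nonneg_right ?_ (by positivity)
    exact (le_abs_self _).trans
      (Finset.single_le_sum (f := fun i => |Cw i|) (fun i _ => abs_nonneg _)
        (Finset.mem_univ i))
  have e15 := e7 i
  calc ‖x i ^ m‖ ≤ _ := e13
    _ ≤ (∑ i, |Cw i|) * ‖x‖ ^ M + (C * W * (B * Fintype.card ι) * ∑ j, ‖φ j p‖ +
      C * W * (∑ q, |Cu q| + ∑ k, |Cz k|) * ‖x‖ ^ M) :=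
        add_le_add (e15.trans e14) e12
    _ = D1 * ∑ j, ‖φ j p‖ + D2 * ‖x‖ ^ (m + 1) := by rw [hD1, hD2, hM]; ring

end Vale.Agent.P298
end
end

section

section

namespace Vale.Agent.P298

open Filter Topology Metric

variable {n k : ℕ}

lemma mem_locIdeal_iff {s : Fin k → (Fin n → ℂ) → ℂ} (hs : ∀ j, Hol (s j)) (f : AnFun n) :
    f ∈ locIdeal (Set.range s) ↔ InIdeal s (f : (Fin n → ℂ) → ℂ) := by
  rw [locIdeal_range s hs]
  constructor
  · intro hf
    rw [Submodule.mem_sup] at hf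
    obtain ⟨y, hy, z, hz, rfl⟩ := hf
    rw [Ideal.mem_span_range_iff_exists_fun] at hz
    obtain ⟨a, ha⟩ := hz
    refine ⟨fun j => (a j : (Fin n → ℂ) → ℂ), fun j => (a j).2, ?_⟩
    filter_upwards [mem_nul.mp hy] with x hx
    have h1 : (((y + z : AnFun n) : (Fin n → ℂ) → ℂ)) x =
        (y : (Fin n → ℂ) → ℂ) x + (z : (Fin n → ℂ) → ℂ) x := rfl
    rw [h1, hx, ← ha]
    simp
  · rintro ⟨a, ha, hf⟩
    rw [Submodule.mem_sup]
    refine ⟨f - ∑ j, (⟨a j, ha j⟩ : AnFun n) * ⟨s j, hs j⟩, ?_,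
      ∑ j, (⟨a j, ha j⟩ : AnFun n) * ⟨s j, hs j⟩, ?_, by ring⟩
    · rw [mem_nul]
      filter_upwards [hf] with x hx
      have h1 : (((f - ∑ j, (⟨a j, ha j⟩ : AnFun n) * ⟨s j, hs j⟩ : AnFun n) :
          (Fin n → ℂ) → ℂ)) x = (f : (Fin n → ℂ) → ℂ) x - ∑ j, a j x * s j x := by
        simp
      rw [h1, hx]
      simp
    · rw [Ideal.mem_span_range_iff_exists_fun]
      exact ⟨fun j => ⟨a j, ha j⟩, rfl⟩

theorem hasColength_of_colength {s : Fin k → (Fin n → ℂ) → ℂ} (hs : ∀ j, Hol (s j)) {d : ℕ}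
    (h : Colength s d) : HasColength (Set.range s) d := by
  obtain ⟨b, hb, H⟩ := h
  set I := locIdeal (Set.range s) with hI
  set B : Fin d → AnFun n := fun i => ⟨b i, hb i⟩ with hB
  set T : (Fin d → ℂ) →ₗ[ℂ] AnFun n ⧸ I :=
    Fintype.linearCombination ℂ (fun i => (Ideal.Quotient.mk I (B i) : AnFun n ⧸ I)) with hT
  have hTapp : ∀ c : Fin d → ℂ, T c = Ideal.Quotient.mk I (∑ i, c i • B i) := by
    intro c
    rw [hT, Fintype.linearCombination_apply, map_sum]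
    rfl
  have hcoe : ∀ c : Fin d → ℂ, ∀ x, ((∑ i, c i • B i : AnFun n) : (Fin n → ℂ) → ℂ) x =
      ∑ i, c i * b i x := by
    intro c x
    simp [hB]
  have hinj : Function.Injective T := by
    rw [← LinearMap.ker_eq_bot, LinearMap.ker_eq_bot']
    intro c hc
    rw [hTapp, Ideal.Quotient.eq_zero_iff_mem, hI, mem_locIdeal_iff hs] at hc
    obtain ⟨c₀, _, hu⟩ := H (fun _ => 0) analyticAt_const
    have h1 : (fun i => -c i) = c₀ := by
      refine hu _ ?_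
      obtain ⟨a, ha, hx⟩ := hc
      refine ⟨a, ha, ?_⟩
      filter_upwards [hx] with x hx
      rw [← hx, hcoe]
      simp
    have h2 : (fun _ => (0 : ℂ)) = c₀ := by
      refine hu _ ?_
      refine ⟨fun _ _ => 0, fun _ => analyticAt_const, ?_⟩
      filter_upwards with x
      simp
    funext i
    have h3 := congrFun (h1.trans h2.symm) i
    simpa using h3
  have hsurj : Function.Surjective T := by
    intro q
    obtain ⟨f, rfl⟩ := Ideal.Quotient.mk_surjective q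
    obtain ⟨c, hc, _⟩ := H f f.2
    refine ⟨c, ?_⟩
    rw [hTapp, Ideal.Quotient.eq, ← neg_mem_iff, hI, mem_locIdeal_iff hs]
    obtain ⟨a, ha, hx⟩ := hc
    refine ⟨a, ha, ?_⟩
    filter_upwards [hx] with x hx
    rw [← hx]
    have h1 : ((-((∑ i, c i • B i) - f) : AnFun n) : (Fin n → ℂ) → ℂ) x =
        -(((∑ i, c i • B i : AnFun n) : (Fin n → ℂ) → ℂ) x - (f : (Fin n → ℂ) → ℂ) x) := rfl
    rw [h1, hcoe]
    ring
  let e := LinearEquiv.ofBijective T ⟨hinj, hsurj⟩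
  refine ⟨Module.Finite.equiv e, ?_⟩
  rw [← e.finrank_eq, Module.finrank_fin_fun]

end Vale.Agent.P298
end
end

section

section

namespace Vale.Agent.P298

open Filter Topology Metric

variable {n : ℕ}

theorem pd_eq_dX {G : (Fin n → ℂ) → ℂ → ℂ} {p : (Fin n → ℂ) × ℂ}
    (h : AnalyticAt ℂ (fun q : (Fin n → ℂ) × ℂ => G q.1 q.2) p) (i : Fin n) :
    pd i (fun x => G x p.2) p.1 =
      dX (fun q : (Fin n → ℂ) × ℂ => G q.1 q.2) p (Pi.single i 1) := by
  have h1 : HasFDerivAt (fun x : Fin n → ℂ => (x, p.2)) (ContinuousLinearMap.inl ℂ _ ℂ) p.1 :=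
    hasFDerivAt_prodMk_left p.1 p.2
  have h0 : HasFDerivAt (fun q : (Fin n → ℂ) × ℂ => G q.1 q.2)
      (fderiv ℂ (fun q : (Fin n → ℂ) × ℂ => G q.1 q.2) p) (p.1, p.2) :=
    h.differentiableAt.hasFDerivAt
  have h2 := h0.comp p.1 h1
  have h3 : fderiv ℂ (fun x => G x p.2) p.1 =
      (fderiv ℂ (fun q : (Fin n → ℂ) × ℂ => G q.1 q.2) p).comp
        (ContinuousLinearMap.inl ℂ _ ℂ) := h2.fderiv
  unfold pd
  rw [h3]
  rfl

theorem analyticAt_dX_apply {X : Type*} [NormedAddCommGroup X] [NormedSpace ℂ X]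
    {G : X × ℂ → ℂ} {p₀ : X × ℂ} (h : AnalyticAt ℂ G p₀) (v : X) :
    AnalyticAt ℂ (fun p => dX G p v) p₀ := by
  have h1 : AnalyticAt ℂ (fderiv ℂ G) p₀ := h.fderiv
  have h2 : (fun p => dX G p v) =
      fun p => (ContinuousLinearMap.apply ℂ ℂ ((v, 0) : X × ℂ)) (fderiv ℂ G p) := by
    funext p
    rfl
  rw [h2]
  exact (ContinuousLinearMap.analyticAt _ _).comp h1

theorem analyticAt_pd {G : (Fin n → ℂ) → ℂ → ℂ} {p₀ : (Fin n → ℂ) × ℂ}
    (h : AnalyticAt ℂ (fun q : (Fin n → ℂ) × ℂ => G q.1 q.2) p₀) (i : Fin n) :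
    AnalyticAt ℂ (fun p : (Fin n → ℂ) × ℂ => pd i (fun x => G x p.2) p.1) p₀ := by
  refine (analyticAt_dX_apply h (Pi.single i 1)).congr ?_
  filter_upwards [h.eventually_analyticAt] with p hp
  exact (pd_eq_dX hp i).symm

theorem eq_zero_of_colength {Λ : Type*} [NormedAddCommGroup Λ] [NormedSpace ℂ Λ]
    {k : ℕ} (l₀ : Λ) (φ : Fin k → (Fin n → ℂ) × Λ → ℂ)
    (hφ : ∀ j, AnalyticAt ℂ (φ j) (0, l₀)) (N : ℕ)
    (hN : ∀ᶠ l in 𝓝 l₀, Colength (fun j => fun x => φ j (x, l)) N) :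
    ∀ᶠ p in 𝓝 ((0 : Fin n → ℂ), l₀), (∀ j, φ j p = 0) → p.1 = 0 := by
  have ht : Tendsto (fun l : Λ => ((0 : Fin n → ℂ), l)) (𝓝 l₀) (𝓝 (0, l₀)) :=
    Continuous.tendsto (by fun_prop) l₀
  have h1 : ∀ᶠ l in 𝓝 l₀, ∀ j, AnalyticAt ℂ (φ j) (0, l) :=
    ht.eventually (eventually_all.2 fun j => (hφ j).eventually_analyticAt)
  have hN' : ∀ᶠ l in 𝓝 l₀, HasColength (Set.range fun j => fun x => φ j (x, l)) N := by
    filter_upwards [h1, hN] with l hl hl'
    refine hasColength_of_colength (fun j => ?_) hl'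
    have h2 : AnalyticAt ℂ (fun x : Fin n → ℂ => (x, l)) 0 :=
      analyticAt_id.prod analyticAt_const
    have h3 : AnalyticAt ℂ (φ j) ((fun x : Fin n → ℂ => (x, l)) 0) := hl j
    exact AnalyticAt.fun_comp (g := φ j) (f := fun x : Fin n → ℂ => (x, l)) h3 h2
  obtain ⟨m, C, hm, h⟩ := semicontinuity l₀ φ hφ N hN'
  filter_upwards [h] with p hp h0
  simp only [h0, norm_zero, Finset.sum_const_zero, mul_zero] at hp
  have h1 : ‖p.1‖ ^ m = 0 := le_antisymm hp (by positivity)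
  exact norm_eq_zero.1 (pow_eq_zero_iff hm |>.1 h1)

theorem surjective_of_ne_zero {X : Type*} [NormedAddCommGroup X] [NormedSpace ℂ X]
    {a : X →L[ℂ] ℂ} {u : X} (h : a u ≠ 0) : Function.Surjective a := by
  intro c
  refine ⟨(c / a u) • u, ?_⟩
  rw [map_smul, smul_eq_mul, div_mul_cancel₀ _ h]

theorem surjective_of_minor {X : Type*} [NormedAddCommGroup X] [NormedSpace ℂ X]
    {a b : X →L[ℂ] ℂ} {u v : X} (h : a u * b v - a v * b u ≠ 0) :
    Function.Surjective (a.prod b) := by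
  rintro ⟨c₁, c₂⟩
  refine ⟨((c₁ * b v - c₂ * a v) / (a u * b v - a v * b u)) • u +
    ((a u * c₂ - b u * c₁) / (a u * b v - a v * b u)) • v, ?_⟩
  rw [ContinuousLinearMap.prod_apply, map_add, map_add, map_smul, map_smul, map_smul, map_smul]
  simp only [smul_eq_mul]
  refine Prod.ext ?_ ?_
  · have e : (c₁ * b v - c₂ * a v) / (a u * b v - a v * b u) * a u +
        (a u * c₂ - b u * c₁) / (a u * b v - a v * b u) * a v =
        c₁ * ((a u * b v - a v * b u) / (a u * b v - a v * b u)) := by ring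
    rw [div_self h, mul_one] at e
    exact e
  · have e : (c₁ * b v - c₂ * a v) / (a u * b v - a v * b u) * b u +
        (a u * c₂ - b u * c₁) / (a u * b v - a v * b u) * b v =
        c₂ * ((a u * b v - a v * b u) / (a u * b v - a v * b u)) := by ring
    rw [div_self h, mul_one] at e
    exact e

theorem surjective_of_det {a b c : (Fin 3 → ℂ) →L[ℂ] ℂ}
    (h : Matrix.det (Matrix.of fun i j : Fin 3 => (![a, b, c] i) (Pi.single j 1)) ≠ 0) :
    Function.Surjective (a.prod (b.prod c)) := by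
  rintro ⟨c₁, c₂, c₃⟩
  set M := Matrix.of fun i j : Fin 3 => (![a, b, c] i) (Pi.single j 1) with hM
  have hu : IsUnit M.det := isUnit_iff_ne_zero.2 h
  set x := M⁻¹.mulVec ![c₁, c₂, c₃] with hx
  have h1 : M.mulVec x = ![c₁, c₂, c₃] := by
    rw [hx, Matrix.mulVec_mulVec, Matrix.mul_nonsing_inv M hu, Matrix.one_mulVec]
  have h2 : ∀ i, (![a, b, c] i) x = M.mulVec x i := by
    intro i
    have := LinearMap.pi_apply_eq_sum_univ ((![a, b, c] i).toLinearMap) x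
    simp only [ContinuousLinearMap.coe_coe, smul_eq_mul] at this
    rw [this, Matrix.mulVec, dotProduct]
    refine Finset.sum_congr rfl fun j _ => ?_
    rw [mul_comm, hM, Matrix.of_apply]
    congr 2
    funext k
    simp [Pi.single_apply, eq_comm]
  have h3 : ∀ i, (![a, b, c] i) x = ![c₁, c₂, c₃] i := fun i => by rw [h2 i, h1]
  refine ⟨x, ?_⟩
  have e0 := h3 0
  have e1 := h3 1
  have e2 := h3 2
  simp at e0 e1 e2
  rw [ContinuousLinearMap.prod_apply, ContinuousLinearMap.prod_apply, e0, e1, e2]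

/-- **Companion flag theorem.** -/
theorem companion_flag {r : ℝ} (hr : 0 < r) {F E H : (Fin 3 → ℂ) → ℂ → ℂ}
    (hF : IsHolFamily r F) (hE : IsHolFamily r E) (hH : IsHolFamily r H) {μ a b c : ℕ}
    (h₁ : ∀ t ∈ ball (0 : ℂ) r, Milnor (F · t) μ)
    (h₂ : ∀ t ∈ ball (0 : ℂ) r, Colength ![(F · t), minor2 0 1 (F · t) (E · t),
      minor2 0 2 (F · t) (E · t), minor2 1 2 (F · t) (E · t)] a)
    (h₃ : ∀ t ∈ ball (0 : ℂ) r, Colength ![(F · t), (E · t), jac3 (F · t) (E · t) (H · t)] b)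
    (h₄ : ∀ t ∈ ball (0 : ℂ) r, Colength ![(F · t), (E · t), (H · t)] c) :
    TopRightTrivial r F := by
  have h0r : (0 : ℂ) ∈ ball (0 : ℂ) r := mem_ball_self hr
  have hnr : ∀ᶠ t in 𝓝 (0 : ℂ), t ∈ ball (0 : ℂ) r := isOpen_ball.mem_nhds h0r
  set Fu : (Fin 3 → ℂ) × ℂ → ℂ := fun p => F p.1 p.2 with hFu
  set Eu : (Fin 3 → ℂ) × ℂ → ℂ := fun p => E p.1 p.2 with hEu
  set Hu : (Fin 3 → ℂ) × ℂ → ℂ := fun p => H p.1 p.2 with hHu
  have aF : AnalyticAt ℂ Fu (0, 0) := (hF 0 h0r).1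
  have aE : AnalyticAt ℂ Eu (0, 0) := (hE 0 h0r).1
  have aH : AnalyticAt ℂ Hu (0, 0) := (hH 0 h0r).1
  have pF := fun i => analyticAt_pd (G := F) aF i
  have pE := fun i => analyticAt_pd (G := E) aE i
  have pH := fun i => analyticAt_pd (G := H) aH i
  -- the minors are analytic
  have aM : ∀ i j, AnalyticAt ℂ (fun p : (Fin 3 → ℂ) × ℂ =>
      minor2 i j (fun x => F x p.2) (fun x => E x p.2) p.1) (0, 0) := fun i j =>
    ((pF i).mul (pE j)).sub ((pF j).mul (pE i))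
  have aJ : AnalyticAt ℂ (fun p : (Fin 3 → ℂ) × ℂ =>
      jac3 (fun x => F x p.2) (fun x => E x p.2) (fun x => H x p.2) p.1) (0, 0) := by
    have : (fun p : (Fin 3 → ℂ) × ℂ =>
        jac3 (fun x => F x p.2) (fun x => E x p.2) (fun x => H x p.2) p.1) = fun p =>
        pd 0 (fun x => F x p.2) p.1 * pd 1 (fun x => E x p.2) p.1 * pd 2 (fun x => H x p.2) p.1 -
        pd 0 (fun x => F x p.2) p.1 * pd 2 (fun x => E x p.2) p.1 * pd 1 (fun x => H x p.2) p.1 -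
        pd 1 (fun x => F x p.2) p.1 * pd 0 (fun x => E x p.2) p.1 * pd 2 (fun x => H x p.2) p.1 +
        pd 1 (fun x => F x p.2) p.1 * pd 2 (fun x => E x p.2) p.1 * pd 0 (fun x => H x p.2) p.1 +
        pd 2 (fun x => F x p.2) p.1 * pd 0 (fun x => E x p.2) p.1 * pd 1 (fun x => H x p.2) p.1 -
        pd 2 (fun x => F x p.2) p.1 * pd 1 (fun x => E x p.2) p.1 * pd 0 (fun x => H x p.2) p.1 := by
      funext p
      simp only [jac3, Matrix.det_fin_three, Matrix.of_apply]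
      simp
    rw [this]
    exact (((((((pF 0).mul (pE 1)).mul (pH 2)).sub (((pF 0).mul (pE 2)).mul (pH 1))).sub
      (((pF 1).mul (pE 0)).mul (pH 2))).add (((pF 1).mul (pE 2)).mul (pH 0))).add
      (((pF 2).mul (pE 0)).mul (pH 1))).sub (((pF 2).mul (pE 1)).mul (pH 0))
  -- the four statements
  have s1 := eq_zero_of_colength (0 : ℂ)
    (fun (i : Fin 3) (p : (Fin 3 → ℂ) × ℂ) => pd i (fun x => F x p.2) p.1) pF μ
    (hnr.mono fun t ht => h₁ t ht)
  have s2 := eq_zero_of_colength (0 : ℂ)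
    (![Fu, fun p => minor2 0 1 (fun x => F x p.2) (fun x => E x p.2) p.1,
      fun p => minor2 0 2 (fun x => F x p.2) (fun x => E x p.2) p.1,
      fun p => minor2 1 2 (fun x => F x p.2) (fun x => E x p.2) p.1])
    (by
      intro j
      fin_cases j
      · exact aF
      · exact aM 0 1
      · exact aM 0 2
      · exact aM 1 2) a
    (hnr.mono fun t ht => by
      have e : (fun (j : Fin 4) => fun x : Fin 3 → ℂ =>
          (![Fu, fun p => minor2 0 1 (fun x => F x p.2) (fun x => E x p.2) p.1,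
      fun p => minor2 0 2 (fun x => F x p.2) (fun x => E x p.2) p.1,
      fun p => minor2 1 2 (fun x => F x p.2) (fun x => E x p.2) p.1]) j (x, t)) =
          ![(F · t), minor2 0 1 (F · t) (E · t),
      minor2 0 2 (F · t) (E · t), minor2 1 2 (F · t) (E · t)] := by
        funext j
        fin_cases j <;> rfl
      rw [e]
      exact h₂ t ht)
  have s3 := eq_zero_of_colength (0 : ℂ)
    (![Fu, Eu, fun p => jac3 (fun x => F x p.2) (fun x => E x p.2) (fun x => H x p.2) p.1])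
    (by
      intro j
      fin_cases j
      · exact aF
      · exact aE
      · exact aJ) b
    (hnr.mono fun t ht => by
      have e : (fun (j : Fin 3) => fun x : Fin 3 → ℂ =>
          (![Fu, Eu, fun p =>
            jac3 (fun x => F x p.2) (fun x => E x p.2) (fun x => H x p.2) p.1]) j (x, t)) =
          ![(F · t), (E · t), jac3 (F · t) (E · t) (H · t)] := by
        funext j
        fin_cases j <;> rfl
      rw [e]
      exact h₃ t ht)
  have s4 := eq_zero_of_colength (0 : ℂ) (![Fu, Eu, Hu])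
    (by
      intro j
      fin_cases j
      · exact aF
      · exact aE
      · exact aH) c
    (hnr.mono fun t ht => by
      have e : (fun (j : Fin 3) => fun x : Fin 3 → ℂ =>
          (![Fu, Eu, Hu]) j (x, t)) = ![(F · t), (E · t), (H · t)] := by
        funext j
        fin_cases j <;> rfl
      rw [e]
      exact h₄ t ht)
  -- a common box
  have hall : ∀ᶠ p in 𝓝 ((0 : Fin 3 → ℂ), (0 : ℂ)), AnalyticAt ℂ Fu p ∧ AnalyticAt ℂ Eu p ∧
      AnalyticAt ℂ Hu p ∧ ((∀ j : Fin 3, pd j (fun x => F x p.2) p.1 = 0) → p.1 = 0) ∧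
      ((Fu p = 0 ∧ minor2 0 1 (fun x => F x p.2) (fun x => E x p.2) p.1 = 0 ∧
        minor2 0 2 (fun x => F x p.2) (fun x => E x p.2) p.1 = 0 ∧
        minor2 1 2 (fun x => F x p.2) (fun x => E x p.2) p.1 = 0) → p.1 = 0) ∧
      ((Fu p = 0 ∧ Eu p = 0 ∧
        jac3 (fun x => F x p.2) (fun x => E x p.2) (fun x => H x p.2) p.1 = 0) → p.1 = 0) ∧
      ((Fu p = 0 ∧ Eu p = 0 ∧ Hu p = 0) → p.1 = 0) := by
    filter_upwards [aF.eventually_analyticAt, aE.eventually_analyticAt,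
      aH.eventually_analyticAt, s1, s2, s3, s4] with p q1 q2 q3 q4 q5 q6 q7
    refine ⟨q1, q2, q3, q4, ?_, ?_, ?_⟩
    · rintro ⟨u0, u1, u2, u3⟩
      refine q5 fun j => ?_
      fin_cases j
      · exact u0
      · exact u1
      · exact u2
      · exact u3
    · rintro ⟨u0, u1, u2⟩
      refine q6 fun j => ?_
      fin_cases j
      · exact u0
      · exact u1
      · exact u2
    · rintro ⟨u0, u1, u2⟩
      refine q7 fun j => ?_
      fin_cases j
      · exact u0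
      · exact u1
      · exact u2
  obtain ⟨ε, hε, hball⟩ := Metric.eventually_nhds_iff_ball.1 hall
  set ρ : ℝ := min (ε / 2) (r / 2) with hρ
  have hρ0 : 0 < ρ := lt_min (by linarith) (by linarith)
  have hρε : ρ < ε := (min_le_left _ _).trans_lt (by linarith)
  have hρr : ρ < r := (min_le_right _ _).trans_lt (by linarith)
  have hbox : ∀ p : (Fin 3 → ℂ) × ℂ, ‖p.1‖ ≤ ρ → ‖p.2‖ ≤ ρ → p ∈ ball ((0 : Fin 3 → ℂ), (0 : ℂ)) ε := by
    intro p h1 h2
    rw [mem_ball, dist_eq_norm]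
    refine lt_of_le_of_lt ?_ hρε
    rw [Prod.norm_def]
    simpa using ⟨h1, h2⟩
  have hmem : ∀ p ∈ (closedBall (0 : Fin 3 → ℂ) ρ ×ˢ closedBall (0 : ℂ) ρ),
      p ∈ ball ((0 : Fin 3 → ℂ), (0 : ℂ)) ε := by
    rintro p ⟨h1, h2⟩
    exact hbox p (by simpa using h1) (by simpa using h2)
  have ht : ∀ t : ℂ, ‖t‖ ≤ ρ → t ∈ ball (0 : ℂ) r := by
    intro t h
    rw [mem_ball, dist_zero_right]
    linarith
  obtain ⟨e, e1, e2, e3, e4, e5⟩ := trivial_of_flag (F := Fu) (E := Eu) (H := Hu) hρ0 hρ0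
    (fun p hp => (hball p (hmem p hp)).1) (fun p hp => (hball p (hmem p hp)).2.1)
    (fun p hp => (hball p (hmem p hp)).2.2.1)
    (fun t h => (hF t (ht t h)).2) (fun t h => (hE t (ht t h)).2) (fun t h => (hH t (ht t h)).2)
    (by
      intro p h1 h2 h3
      have h := hball p (hbox p h1 h2)
      have h4 : ¬ ∀ j : Fin 3, pd j (fun x => F x p.2) p.1 = 0 := fun hc => h3 (h.2.2.2.1 hc)
      push Not at h4
      obtain ⟨j, hj⟩ := h4
      rw [pd_eq_dX h.1] at hj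
      exact surjective_of_ne_zero hj)
    (by
      intro p h1 h2 h3 h5
      have h := hball p (hbox p h1 h2)
      have h4 : ∃ i j, minor2 i j (fun x => F x p.2) (fun x => E x p.2) p.1 ≠ 0 := by
        by_contra hc
        push Not at hc
        exact h3 (h.2.2.2.2.1 ⟨h5, hc 0 1, hc 0 2, hc 1 2⟩)
      obtain ⟨i, j, hij⟩ := h4
      unfold minor2 at hij
      rw [pd_eq_dX h.1, pd_eq_dX h.1, pd_eq_dX h.2.1, pd_eq_dX h.2.1] at hij
      exact surjective_of_minor hij)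
    (by
      intro p h1 h2 h3 h5 h6
      have h := hball p (hbox p h1 h2)
      have h4 : jac3 (fun x => F x p.2) (fun x => E x p.2) (fun x => H x p.2) p.1 ≠ 0 := by
        intro hc
        exact h3 (h.2.2.2.2.2.1 ⟨h5, h6, hc⟩)
      refine surjective_of_det ?_
      unfold jac3 at h4
      have e : (Matrix.of fun i j : Fin 3 => pd j
          (![(fun x => F x p.2), (fun x => E x p.2), (fun x => H x p.2)] i) p.1) =
          Matrix.of fun i j : Fin 3 => (![dX Fu p, dX Eu p, dX Hu p] i) (Pi.single j 1) := by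
        ext i j
        rw [Matrix.of_apply, Matrix.of_apply]
        fin_cases i
        · exact pd_eq_dX h.1 j
        · exact pd_eq_dX h.2.1 j
        · exact pd_eq_dX h.2.2.1 j
      rw [e] at h4
      exact h4)
    (by
      intro p h1 h2 h3 h4 h5
      exact (hball p (hbox p h1 h2)).2.2.2.2.2.2 ⟨h3, h4, h5⟩)
  refine ⟨ρ / 2, by linarith, by linarith, e, ?_, ?_, ?_⟩
  · intro p hp
    rw [mem_ball, dist_zero_right]
    exact e1 p hp
  · intro t ht
    rw [mem_ball, dist_zero_right] at ht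
    exact ⟨e2 t ht, e4 t⟩
  · intro p hp
    refine ⟨e3 p, ?_⟩
    have := e5 p hp
    simp only [hFu] at this
    rw [e3 p] at this
    exact this

end Vale.Agent.P298
end
end
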